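import Vale.Agent.P273.H132.LgU

/-!
# P273, crew ASY0 (T3a): the direction table of the log charts

* values of the logarithm `LX` of the first neck coordinate of a mark on the directions;
* a gap direction which moves the mark belongs to a gap of the same neck, and both `X` and `Y` are
  at most `exp (-u f)`;
* the base angle `α k` moves `X` or `Y` only through the largest gap;
* the base `bC` on the directions, on the Euler vectors.
-/

noncomputable section

namespace Vale.Agent.P273.H863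

open Set Filter H681 H95 H732 H562 H803 H545 H722 H132
open scoped Topology ContDiff

section Word

variable {C : Type} [Fintype C] [DecidableEq C] {K : Type} [DecidableEq K] [Fintype K]
  {n : K → ℕ} (m : ∀ k, Fin (n k + 1))

theorem dep_eq (p : (wreg n m).Co C) (k : K) (i : Fin (n k)) :
    wreg.dep m p k i = ∑ g ∈ wreg.bef n k i, (wreg n m).ug p g := by
  have h1 := congrArg Complex.re (wreg.LX_eq m p k i)
  rw [wreg.LX, Reg.lS_re] at h1
  simp only [Complex.add_re, Complex.neg_re, Complex.ofReal_re, Complex.mul_re,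
      Complex.I_re, Complex.I_im, Complex.ofReal_im, mul_zero, mul_one, sub_zero, add_zero] at h1
  linarith

theorem y_sub_dep_eq (p : (wreg n m).Co C) (k : K) (i : Fin (n k)) :
    p.2.2.1 k - wreg.dep m p k i = ∑ g ∈ wreg.aft n k i, (wreg n m).ug p g := by
  have h1 := congrArg Complex.re (wreg.LY_eq m p k i)
  rw [wreg.LY, Reg.lS_re] at h1
  simp only [Complex.add_re, Complex.neg_re, Complex.ofReal_re, Complex.mul_re,
      Complex.I_re, Complex.I_im, Complex.ofReal_im, mul_zero, mul_one, sub_zero, add_zero] at h1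
  linarith

theorem LX_re (p : (wreg n m).Co C) (k : K) (i : Fin (n k)) :
    (wreg.LX C n m k i p).re = -wreg.dep m p k i := by
  rw [wreg.LX_eq]
  simp

variable {m}

theorem ug_le_dep {p : (wreg n m).Co C} (hp : (wreg n m).Inr p) (hl : ∀ k, 0 ≤ (wreg n m).ul p k)
    {k : K} {i : Fin (n k)} {g : Σ k, Fin (n k + 1)} (hg : g ∈ wreg.bef n k i) :
    (wreg n m).ug p g ≤ wreg.dep m p k i := by
  rw [dep_eq]
  exact Finset.single_le_sum (f := fun g => (wreg n m).ug p g)
    (fun g _ => (wreg n m).ug_nonneg hp hl g) hg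

theorem ug_le_sub_dep {p : (wreg n m).Co C} (hp : (wreg n m).Inr p)
    (hl : ∀ k, 0 ≤ (wreg n m).ul p k)
    {k : K} {i : Fin (n k)} {g : Σ k, Fin (n k + 1)} (hg : g ∈ wreg.aft n k i) :
    (wreg n m).ug p g ≤ p.2.2.1 k - wreg.dep m p k i := by
  rw [y_sub_dep_eq]
  exact Finset.single_le_sum (f := fun g => (wreg n m).ug p g)
    (fun g _ => (wreg n m).ug_nonneg hp hl g) hg

variable (m)

include m in
theorem mem_bef_or_aft {k : K} (i : Fin (n k)) {g : Σ k, Fin (n k + 1)} (hg : g.1 = k)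
    (h : g ∉ wreg.bef n k i) : g ∈ wreg.aft n k i := by
  rw [← wreg.sdiff_bef m, Finset.mem_sdiff]
  exact ⟨(Reg.mem_neck _).2 hg, h⟩

include m in
theorem fst_of_mem_bef {k : K} {i : Fin (n k)} {g : Σ k, Fin (n k + 1)}
    (h : g ∈ wreg.bef n k i) : g.1 = k :=
  (Reg.mem_neck _).1 (wreg.bef_subset m k i h)

variable {m}

/-- **a direction of a gap**: either the mark does not move, or the gap is a gap of its neck and both
coordinates are smaller than the gap -/
theorem gap_split {p : (wreg n m).Co C} (hp : (wreg n m).Inr p)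
    (hl : ∀ k, 0 ≤ (wreg n m).ul p k) (k : K) (i : Fin (n k)) (f : (wreg n m).Fr)
    {d : (wreg n m).Dir C} (hd : d = .u f ∨ d = .ph f) :
    wreg.LX C n m k i ((wreg n m).vec d) = 0 ∨
      (f.1.1 = k ∧ p.1 f ≤ wreg.dep m p k i ∧ p.1 f ≤ p.2.2.1 k - wreg.dep m p k i) := by
  have hul : p.1 f ≤ (wreg n m).ug p ((wreg n m).last ((wreg n m).nk f.1)) := by
    rw [Reg.ug_last]
    exact hp.2 f
  have huf : p.1 f ≤ (wreg n m).ug p f.1 := by rw [Reg.ug_free]
  by_cases h1 : f.1 ∈ wreg.bef n k i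
  · by_cases h2 : (wreg n m).last ((wreg n m).nk f.1) ∈ wreg.bef n k i
    · left
      obtain ⟨a, b⟩ := (wreg n m).lS_vec_rigid (C := C) (wreg.bef n k i) f
        ⟨fun _ => h2, fun _ => h1⟩
      rcases hd with rfl | rfl
      · exact a
      · exact b
    · right
      have e1 : f.1.1 = k := fst_of_mem_bef m h1
      have h3 := mem_bef_or_aft m i (g := (wreg n m).last ((wreg n m).nk f.1)) e1 h2
      exact ⟨e1, huf.trans (ug_le_dep hp hl h1), hul.trans (ug_le_sub_dep hp hl h3)⟩
  · by_cases h2 : (wreg n m).last ((wreg n m).nk f.1) ∈ wreg.bef n k i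
    · right
      have e1 : f.1.1 = k :=
        fst_of_mem_bef m (g := (wreg n m).last ((wreg n m).nk f.1)) h2
      have h3 := mem_bef_or_aft m i e1 h1
      exact ⟨e1, hul.trans (ug_le_dep hp hl h2), huf.trans (ug_le_sub_dep hp hl h3)⟩
    · left
      obtain ⟨a, b⟩ := (wreg n m).lS_vec_rigid (C := C) (wreg.bef n k i) f
        ⟨fun h => absurd h h1, fun h => absurd h h2⟩
      rcases hd with rfl | rfl
      · exact a
      · exact b

/-- **a base angle** moves only the marks of its neck, and through the largest gap -/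
theorem al_split {p : (wreg n m).Co C} (hp : (wreg n m).Inr p)
    (hl : ∀ k, 0 ≤ (wreg n m).ul p k) (k : K) (i : Fin (n k)) :
    (wreg.LX C n m k i ((wreg n m).vec (.al k)) = Complex.I ∧
      (wreg n m).ul p k ≤ wreg.dep m p k i) ∨
    (wreg.LX C n m k i ((wreg n m).vec (.al k)) = 0 ∧
      (wreg n m).ul p k ≤ p.2.2.1 k - wreg.dep m p k i) := by
  have h0 : wreg.LX C n m k i ((wreg n m).vec (.al k)) =
    (if (wreg n m).last k ∈ wreg.bef n k i then 1 else 0) * Complex.I :=
    (wreg n m).lS_vec_al _ k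
  by_cases h1 : (wreg n m).last k ∈ wreg.bef n k i
  · left
    refine ⟨by rw [h0, if_pos h1, one_mul], ?_⟩
    rw [← Reg.ug_last]
    exact ug_le_dep hp hl h1
  · right
    refine ⟨by rw [h0, if_neg h1, zero_mul], ?_⟩
    rw [← Reg.ug_last]
    exact ug_le_sub_dep hp hl (mem_bef_or_aft m i rfl h1)

theorem LX_al_ne (k l : K) (i : Fin (n k)) (h : l ≠ k) :
    wreg.LX C n m k i ((wreg n m).vec (.al l)) = 0 := by
  have h0 : wreg.LX C n m k i ((wreg n m).vec (.al l)) =
    (if (wreg n m).last l ∈ wreg.bef n k i then 1 else 0) * Complex.I :=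
    (wreg n m).lS_vec_al _ l
  rw [h0, if_neg (fun h1 => h (fst_of_mem_bef m h1)), zero_mul]

theorem LX_y_ne (k l : K) (i : Fin (n k)) (h : l ≠ k) :
    wreg.LX C n m k i ((wreg n m).vec (.y l)) = 0 := by
  have h0 : wreg.LX C n m k i ((wreg n m).vec (.y l)) =
    -(if (wreg n m).last l ∈ wreg.bef n k i then 1 else 0) :=
    (wreg n m).lS_vec_y _ l
  rw [h0, if_neg (fun h1 => h (fst_of_mem_bef m h1)), neg_zero]

theorem LX_re_dir (k : K) (i : Fin (n k)) (c : C) :
    wreg.LX C n m k i ((wreg n m).vec (.re c)) = 0 := (wreg n m).lS_vec_re _ c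

theorem LX_im_dir (k : K) (i : Fin (n k)) (c : C) :
    wreg.LX C n m k i ((wreg n m).vec (.im c)) = 0 := (wreg n m).lS_vec_im _ c

/-- the Euler vector of the neck of the mark -/
theorem LX_eul (p : (wreg n m).Co C) (k : K) (i : Fin (n k)) (hy : p.2.2.1 k ≠ 0) :
    wreg.LX C n m k i ((wreg n m).eul p k) = -((wreg.dep m p k i / p.2.2.1 k : ℝ) : ℂ) := by
  rw [dep_eq]
  exact (wreg n m).lS_eul (wreg.bef_subset m k i) p hy

/-- the Euler vector of another neck -/
theorem LX_eul_ne (p : (wreg n m).Co C) (k l : K) (i : Fin (n k)) (h : l ≠ k)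
    (hy : p.2.2.1 l ≠ 0) : wreg.LX C n m k i ((wreg n m).eul p l) = 0 := by
  refine (wreg n m).lS_eul_of_disjoint ?_ p hy
  rw [Finset.disjoint_left]
  intro g h1 h2
  exact h (((Reg.mem_neck _).1 h2).symm.trans (fst_of_mem_bef m h1))

end Word

section Base

variable (R : H95.Region) (m : ∀ k, Fin (R.n k + 1))

theorem bC_u (f : (W R m).Fr) : bC R m ((W R m).vec (.u f)) = 0 := rfl

theorem bC_ph (f : (W R m).Fr) : bC R m ((W R m).vec (.ph f)) = 0 := rfl

theorem bC_gap {f : (W R m).Fr} {d : (W R m).Dir R.Cm} (hd : d = .u f ∨ d = .ph f) :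
    bC R m ((W R m).vec d) = 0 := by
  rcases hd with rfl | rfl
  · rfl
  · rfl

theorem bC_re (c : R.Cm) : bC R m ((W R m).vec (.re c)) = 0 := rfl

theorem bC_im (c : R.Cm) : bC R m ((W R m).vec (.im c)) = 0 := rfl

theorem bC_al (l : Fin 3) : bC R m ((W R m).vec (.al l)) = ea l := rfl

theorem bC_y (l : Fin 3) : bC R m ((W R m).vec (.y l)) = ey l := rfl

theorem bC_eul (p : Co R m) (l : Fin 3) : bC R m ((W R m).eul p l) = ey l := rfl

/-- the number of gaps is at most `17` -/
theorem card_gap_le : (Fintype.card (Σ k, Fin (R.n k + 1)) : ℝ) ≤ 17 := by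
  have h1 : Fintype.card (Σ k, Fin (R.n k + 1)) = ∑ k, (R.n k + 1) := by
    rw [Fintype.card_sigma]
    simp only [Fintype.card_fin]
  have h2 : ∑ k, R.n k ≤ Fintype.card L := by
    have h3 : ∑ k, R.n k = ∑ k ∈ (Finset.univ : Finset (Fin 3)),
        (Finset.univ.filter fun y : L => R.pl y = Sum.inl k).card := rfl
    rw [h3, ← Finset.card_biUnion]
    · exact Finset.card_le_univ _
    · intro a _ b _ hab
      refine Finset.disjoint_left.2 ?_
      intro y h4 h5
      rw [Finset.mem_filter] at h4 h5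
      exact hab (Sum.inl.inj (h4.2.symm.trans h5.2))
  have h4 : Fintype.card L = 14 := by decide
  have h5 : ∑ k : Fin 3, (R.n k + 1) = ∑ k, R.n k + 3 := by
    rw [Finset.sum_add_distrib]
    simp
  rw [h1, h5]
  have h6 : ∑ k, R.n k + 3 ≤ 17 := by omega
  exact_mod_cast h6

variable {R m}

theorem ul_nonneg {p : Co R m} (hp : (W R m).Inr p) (hy : ∀ k, 0 ≤ p.2.2.1 k) (k : Fin 3) :
    0 ≤ (W R m).ul p k := (W R m).ul_nonneg hp k (hy k)

/-- the largest gap is at least `y / 17` -/
theorem y_le_ul {p : Co R m} (hp : (W R m).Inr p) (hy : ∀ k, 0 ≤ p.2.2.1 k) (k : Fin 3) :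
    p.2.2.1 k ≤ 17 * (W R m).ul p k :=
  ((W R m).y_le hp k (hy k)).trans
    (mul_le_mul_of_nonneg_right (card_gap_le R) (ul_nonneg hp hy k))

end Base

end Vale.Agent.P273.H863

end
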