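import Vale.Agent.P273.H863.NeckB

/-!
# P273, crew ASY0 (T3a): the fields `b1, b2, b4, b5, b6` of `AsyQ Neck κ (lgU U)`
-/

noncomputable section

namespace Vale.Agent.P273.H863

open Set Filter H681 H95 H732 H562 H803 H545 H722 H722.KapData H132
open scoped Topology ContDiff

section Pt

variable {U : UData} {R : H95.Region} {m : ∀ k, Fin (R.n k + 1)} {S : L → Bool} {p : Co R m}
  {j : L} {k : Fin 3} (h : R.pl j = Sum.inl k) (ξ : Fin 6 → ℝ)

theorem A_nn (hp : Adm R m S (NN U) p) : 0 ≤ U.A := A_nonneg U (ep_lt hp)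

/-- gap directions -/
theorem gap_le (hp : Adm R m S (NN U) p) (f : (W R m).Fr) {d : (W R m).Dir R.Cm}
    (hd : d = .u f ∨ d = .ph f) :
    |fderiv ℝ (UNp m U ξ h) p ((W R m).vec d)| ≤ (1 + 2 * aa U + 2 * aa U * U.A) *
      (|bt ξ ((W R m).nk f.1)| +
        ‖ξ‖ * (1 / p.2.2.1 ((W R m).nk f.1) + Real.exp (-p.1 f))) := by
  have hA := A_nn hp
  have ha := aa_nonneg U
  have hy := y_pos hp
  have e := neck_gap U h ξ hp.1 (fun k => (hy k).le) (big hp) (ep_lt hp) f hd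
  have hyf := hy ((W R m).nk f.1)
  have hR : 0 ≤ (1 + 2 * aa U + 2 * aa U * U.A) * (|bt ξ ((W R m).nk f.1)| +
        ‖ξ‖ * (1 / p.2.2.1 ((W R m).nk f.1) + Real.exp (-p.1 f))) := by positivity
  refine e.trans ?_
  split_ifs with h1
  · have h1' : (W R m).nk f.1 = k := h1
    rw [h1'] at hyf ⊢
    have hZ := ZZ_le U ξ
    have hZ0 := ZZ_nonneg U ξ
    have a1 := w0_le ξ hp k
    have a2 := c0_le ξ hp
    have hy0 : 0 < (bP R m p).1 k := lt_of_lt_of_le hyf (yk_le p k)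
    set E := Real.exp (-p.1 f) with hE
    have hE0 : 0 < E := Real.exp_pos _
    have t1 : 2 * |w0 U ξ p k| / (bP R m p).1 k ≤ 2 * aa U * (‖ξ‖ * (1 / p.2.2.1 k)) := by
      calc 2 * |w0 U ξ p k| / (bP R m p).1 k ≤ 2 * (aa U * ‖ξ‖) / p.2.2.1 k :=
            div_le_div₀ (by positivity) (by linarith) hyf (yk_le p k)
        _ = _ := by ring
    have t2 : 8 * U.A * c0 U ξ p * E ≤ 2 * aa U * U.A * (‖ξ‖ * E) := by
      have b1 : c0 U ξ p ≤ aa U * ‖ξ‖ / 5 := by linarith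
      calc 8 * U.A * c0 U ξ p * E ≤ 8 * U.A * (aa U * ‖ξ‖ / 5) * E := by gcongr
        _ = 8 / 5 * (aa U * U.A * (‖ξ‖ * E)) := by ring
        _ ≤ 2 * (aa U * U.A * (‖ξ‖ * E)) :=
            mul_le_mul_of_nonneg_right (by norm_num) (by positivity)
        _ = _ := by ring
    have n1 : 0 ≤ ‖ξ‖ * (1 / p.2.2.1 k) := by positivity
    have n2 : 0 ≤ ‖ξ‖ * E := by positivity
    have n3 : 0 ≤ aa U * |bt ξ k| := by positivity
    have n4 : 0 ≤ aa U * U.A * |bt ξ k| := by positivity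
    have n5 : 0 ≤ aa U * U.A * (‖ξ‖ * (1 / p.2.2.1 k)) := by positivity
    have n6 : 0 ≤ aa U * (‖ξ‖ * E) := by positivity
    have e2 : (1 + 2 * aa U + 2 * aa U * U.A) * (|bt ξ k| + ‖ξ‖ * (1 / p.2.2.1 k + E)) =
        |bt ξ k| + 2 * (aa U * |bt ξ k|) + 2 * (aa U * U.A * |bt ξ k|) +
        (‖ξ‖ * (1 / p.2.2.1 k) + 2 * aa U * (‖ξ‖ * (1 / p.2.2.1 k)) +
          2 * (aa U * U.A * (‖ξ‖ * (1 / p.2.2.1 k)))) +
        (‖ξ‖ * E + 2 * (aa U * (‖ξ‖ * E)) + 2 * aa U * U.A * (‖ξ‖ * E)) := by ring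
    rw [e2]
    linarith
  · exact hR

/-- base angles -/
theorem al_le (hp : Adm R m S (NN U) p) (l : Fin 3) :
    |fderiv ℝ (UNp m U ξ h) p ((W R m).vec (.al l))| ≤
      (2 + 2 * U.A + (1 + 10 * U.A) * aa U) * (|bt ξ l| + ‖ξ‖ / p.2.2.1 l) := by
  have hA := A_nn hp
  have ha := aa_nonneg U
  have hy := y_pos hp
  have hyl := hy l
  have e := neck_al U h ξ hp.1 (fun k => (hy k).le) (big hp) (ep_lt hp) l
  have hZ := ZZ_le U ξ
  have hZ0 := ZZ_nonneg U ξ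
  have a2 := c0_le ξ hp
  have a3 := w1_ea_le ξ hp k l
  have a4 := c1_ea_le ξ hp l
  have a5 := exp_y_le hp l
  have c00 := c0_nonneg U ξ p
  have hq : ZZ U ξ / (bP R m p).1 l ≤ ZZ U ξ / p.2.2.1 l :=
    div_le_div_of_nonneg_left hZ0 hyl (yk_le p l)
  set q := ZZ U ξ / p.2.2.1 l with hqd
  have hq0 : 0 ≤ q := by positivity
  have hqx : q ≤ aa U * (‖ξ‖ / p.2.2.1 l) := by
    rw [hqd]
    calc ZZ U ξ / p.2.2.1 l ≤ aa U * ‖ξ‖ / p.2.2.1 l :=
          div_le_div_of_nonneg_right hZ hyl.le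
      _ = _ := by ring
  have t1 : (if l = k then |bt ξ k| + 2 * U.A * c0 U ξ p * Real.exp (-(W R m).ul p k) else 0) ≤
      |bt ξ l| + 7 * U.A * q := by
    split_ifs with h1
    · rw [← h1]
      have b1 := exp_ul_le hp l
      have b2 : 2 * U.A * c0 U ξ p * Real.exp (-(W R m).ul p l) ≤
          2 * U.A * (ZZ U ξ / 5) * (17 / p.2.2.1 l) := by gcongr
      have b3 : 2 * U.A * (ZZ U ξ / 5) * (17 / p.2.2.1 l) = 34 / 5 * (U.A * q) := by
        rw [hqd]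
        ring
      have b4 : 0 ≤ U.A * q := by positivity
      linarith
    · positivity
  have t2 : c0 U ξ p * Real.exp (-(bP R m p).1 l) ≤ q / 5 := by
    calc c0 U ξ p * Real.exp (-(bP R m p).1 l) ≤ ZZ U ξ / 5 * (1 / p.2.2.1 l) := by gcongr
      _ = _ := by rw [hqd]; ring
  have t3 : 2 * U.A * (c0 U ξ p * Real.exp (-(bP R m p).1 l) + c1 U ξ p (ea l)) ≤
      2 * U.A * (q / 5 + (|bt ξ l| + q)) := by
    refine mul_le_mul_of_nonneg_left ?_ (by positivity)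
    linarith
  have k1 : |fderiv ℝ (UNp m U ξ h) p ((W R m).vec (.al l))| ≤
      (2 + 2 * U.A) * |bt ξ l| + (1 + 10 * U.A) * q := by
    have b4 : 0 ≤ U.A * q := by positivity
    linarith
  have k2 : (1 + 10 * U.A) * q ≤ (1 + 10 * U.A) * (aa U * (‖ξ‖ / p.2.2.1 l)) :=
    mul_le_mul_of_nonneg_left hqx (by positivity)
  have n1 : 0 ≤ ‖ξ‖ / p.2.2.1 l := by positivity
  have n2 : 0 ≤ U.A * (‖ξ‖ / p.2.2.1 l) := by positivity
  have n3 : 0 ≤ aa U * |bt ξ l| := by positivity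
  have n4 : 0 ≤ U.A * aa U * |bt ξ l| := by positivity
  have e2 : (2 + 2 * U.A + (1 + 10 * U.A) * aa U) * (|bt ξ l| + ‖ξ‖ / p.2.2.1 l) =
      (2 + 2 * U.A) * |bt ξ l| + (aa U * |bt ξ l| + 10 * (U.A * aa U * |bt ξ l|)) +
      (2 * (‖ξ‖ / p.2.2.1 l) + 2 * (U.A * (‖ξ‖ / p.2.2.1 l))) +
      (1 + 10 * U.A) * (aa U * (‖ξ‖ / p.2.2.1 l)) := by ring
  rw [e2]
  linarith

/-- Euler vectors -/
theorem eul_le (hp : Adm R m S (NN U) p) (l : Fin 3) :
    |fderiv ℝ (UNp m U ξ h) p ((W R m).eul p l)| ≤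
      ((2 + 4 * U.A) * aa U) * (‖ξ‖ / p.2.2.1 l) := by
  have hA := A_nn hp
  have ha := aa_nonneg U
  have hy := y_pos hp
  have hyl := hy l
  have e := neck_eul U h ξ hp.1 (fun k => (hy k).le) (big hp) (ep_lt hp) l hyl
  have hZ := ZZ_le U ξ
  have hZ0 := ZZ_nonneg U ξ
  have a2 := c0_le ξ hp
  have a3 := w1_ey_le ξ hp k l
  have a4 := c1_ey_le ξ hp l
  have a5 := exp_y_le hp l
  have c00 := c0_nonneg U ξ p
  set q := ZZ U ξ / p.2.2.1 l with hqd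
  have hq0 : 0 ≤ q := by positivity
  have hqx : q ≤ aa U * (‖ξ‖ / p.2.2.1 l) := by
    rw [hqd]
    calc ZZ U ξ / p.2.2.1 l ≤ aa U * ‖ξ‖ / p.2.2.1 l :=
          div_le_div_of_nonneg_right hZ hyl.le
      _ = _ := by ring
  have t1 : (if l = k then 2 * |w0 U ξ p k| / (bP R m p).1 k * (3 / p.2.2.1 l) +
        4 * U.A * c0 U ξ p / p.2.2.1 l else 0) ≤ q + U.A * q := by
    split_ifs with h1
    · rw [← h1]
      have b0 := w0_le ξ hp l
      have b8 := eight_le hp l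
      have b1 : 2 * |w0 U ξ p l| / (bP R m p).1 l * (3 / p.2.2.1 l) ≤ q := by
        calc 2 * |w0 U ξ p l| / (bP R m p).1 l * (3 / p.2.2.1 l)
            ≤ 2 * ZZ U ξ / 8 * (3 / p.2.2.1 l) := by
              refine mul_le_mul_of_nonneg_right ?_ (by positivity)
              exact div_le_div₀ (by positivity) (by linarith) (by norm_num) b8
          _ = 3 / 4 * q := by rw [hqd]; ring
          _ ≤ q := by linarith
      have b2 : 4 * U.A * c0 U ξ p / p.2.2.1 l ≤ U.A * q := by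
        calc 4 * U.A * c0 U ξ p / p.2.2.1 l ≤ 4 * U.A * (ZZ U ξ / 5) / p.2.2.1 l := by gcongr
          _ = 4 / 5 * (U.A * q) := by rw [hqd]; ring
          _ ≤ U.A * q := by
            have : 0 ≤ U.A * q := by positivity
            linarith
      linarith
    · positivity
  have t2 : c0 U ξ p * Real.exp (-(bP R m p).1 l) ≤ q / 5 := by
    calc c0 U ξ p * Real.exp (-(bP R m p).1 l) ≤ ZZ U ξ / 5 * (1 / p.2.2.1 l) := by gcongr
      _ = _ := by rw [hqd]; ring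
  have t3 : 2 * U.A * (c0 U ξ p * Real.exp (-(bP R m p).1 l) + c1 U ξ p (ey l)) ≤
      2 * U.A * (q / 5 + q) := by
    refine mul_le_mul_of_nonneg_left ?_ (by positivity)
    linarith
  have k1 : |fderiv ℝ (UNp m U ξ h) p ((W R m).eul p l)| ≤ (2 + 4 * U.A) * q := by
    have b4 : 0 ≤ U.A * q := by positivity
    linarith
  have k2 : (2 + 4 * U.A) * q ≤ (2 + 4 * U.A) * (aa U * (‖ξ‖ / p.2.2.1 l)) :=
    mul_le_mul_of_nonneg_left hqx (by positivity)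
  linarith

variable {ξ} (hβ : ∀ k, bt ξ k = 0)

include hβ

theorem gap_le_a (hp : Adm R m S (NN U) p) (f : (W R m).Fr) {d : (W R m).Dir R.Cm}
    (hd : d = .u f ∨ d = .ph f) :
    |fderiv ℝ (UNp m U ξ h) p ((W R m).vec d)| ≤ (8 + 64 * U.A) * H562.ww ξ p.2.2.1 := by
  have hA := A_nn hp
  have hy := y_pos hp
  have e := neck_gap U h ξ hp.1 (fun k => (hy k).le) (big hp) (ep_lt hp) f hd
  have hw : 0 ≤ H562.ww ξ p.2.2.1 := ww_nonneg ξ hy
  refine e.trans ?_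
  split_ifs with h1
  · have a1 := w0_le_a hβ hp k
    have a2 := c0_le_a hβ hp
    have a3 : Real.exp (-p.1 f) ≤ 1 := by
      rw [Real.exp_le_one_iff]
      have := hp.1.1 f
      linarith
    have t2 : 8 * U.A * c0 U ξ p * Real.exp (-p.1 f) ≤
        8 * U.A * (8 * H562.ww ξ p.2.2.1) * 1 := by
      have c00 := c0_nonneg U ξ p
      gcongr
    rw [hβ k, abs_zero]
    linarith
  · positivity

theorem al_le_a (hp : Adm R m S (NN U) p) (l : Fin 3) :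
    |fderiv ℝ (UNp m U ξ h) p ((W R m).vec (.al l))| ≤
      (A2 U.D + 32 * U.A + 2 * U.A * A2 U.D) * H562.ww ξ p.2.2.1 := by
  have hA := A_nn hp
  have hy := y_pos hp
  have e := neck_al U h ξ hp.1 (fun k => (hy k).le) (big hp) (ep_lt hp) l
  have hw : 0 ≤ H562.ww ξ p.2.2.1 := ww_nonneg ξ hy
  have a2 := c0_le_a hβ hp
  have a3 := w1_ea_le_a hβ hp k l
  have a4 := c1_ea_le_a hβ hp l
  have c00 := c0_nonneg U ξ p
  have t1 : (if l = k then |bt ξ k| + 2 * U.A * c0 U ξ p * Real.exp (-(W R m).ul p k) else 0) ≤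
      16 * U.A * H562.ww ξ p.2.2.1 := by
    split_ifs with h1
    · have b1 := exp_ul_le_one hp k
      have b2 : 2 * U.A * c0 U ξ p * Real.exp (-(W R m).ul p k) ≤
          2 * U.A * (8 * H562.ww ξ p.2.2.1) * 1 := by gcongr
      rw [hβ k, abs_zero]
      linarith
    · positivity
  have t2 : c0 U ξ p * Real.exp (-(bP R m p).1 l) ≤ 8 * H562.ww ξ p.2.2.1 * 1 := by
    have := exp_y_le_one hp l
    gcongr
  have t3 : 2 * U.A * (c0 U ξ p * Real.exp (-(bP R m p).1 l) + c1 U ξ p (ea l)) ≤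
      2 * U.A * (8 * H562.ww ξ p.2.2.1 + A2 U.D * H562.ww ξ p.2.2.1) := by
    refine mul_le_mul_of_nonneg_left ?_ (by positivity)
    linarith
  linarith

theorem eul_le_a (hp : Adm R m S (NN U) p) (l : Fin 3) :
    |fderiv ℝ (UNp m U ξ h) p ((W R m).eul p l)| ≤
      (7 * A2 U.D + 24 + 64 * U.A + 4 * U.A * A2 U.D) *
        (H562.ww ξ p.2.2.1 * (mn p.2.2.1 / p.2.2.1 l)) := by
  have hA := A_nn hp
  have hy := y_pos hp
  have hyl := hy l
  have e := neck_eul U h ξ hp.1 (fun k => (hy k).le) (big hp) (ep_lt hp) l hyl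
  have hw : 0 ≤ H562.ww ξ p.2.2.1 := ww_nonneg ξ hy
  have a1 := w0_le_a hβ hp k
  have a2 := c0_le_a hβ hp
  have a3 := w1_ey_le_a hβ hp k l
  have a4 := c1_ey_le_a hβ hp l
  have c00 := c0_nonneg U ξ p
  have hN := one_le_NN U
  have hmn : 1 ≤ mn p.2.2.1 := le_mn fun k => hN.trans (y_ge hp k)
  have hr : 1 / p.2.2.1 l ≤ mn p.2.2.1 / p.2.2.1 l :=
    div_le_div_of_nonneg_right hmn hyl.le
  set r := mn p.2.2.1 / p.2.2.1 l with hrd
  set w := H562.ww ξ p.2.2.1 with hwd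
  have hr0 : 0 ≤ r := by positivity
  have hwr : 0 ≤ w * r := by positivity
  have t1 : (if l = k then 2 * |w0 U ξ p k| / (bP R m p).1 k * (3 / p.2.2.1 l) +
        4 * U.A * c0 U ξ p / p.2.2.1 l else 0) ≤ 24 * (w * r) + 32 * U.A * (w * r) := by
    split_ifs with h1
    · have b1 : 2 * |w0 U ξ p k| / (bP R m p).1 k * (3 / p.2.2.1 l) ≤ 24 * (w * r) := by
        calc 2 * |w0 U ξ p k| / (bP R m p).1 k * (3 / p.2.2.1 l)
            ≤ 8 * w * (3 * r) := by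
              refine mul_le_mul a1 ?_ (by positivity) (by positivity)
              calc 3 / p.2.2.1 l = 3 * (1 / p.2.2.1 l) := by ring
                _ ≤ 3 * r := mul_le_mul_of_nonneg_left hr (by norm_num)
          _ = _ := by ring
      have b2 : 4 * U.A * c0 U ξ p / p.2.2.1 l ≤ 32 * U.A * (w * r) := by
        calc 4 * U.A * c0 U ξ p / p.2.2.1 l = 4 * U.A * (c0 U ξ p * (1 / p.2.2.1 l)) := by ring
          _ ≤ 4 * U.A * (8 * w * r) := by
            refine mul_le_mul_of_nonneg_left ?_ (by positivity)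
            exact mul_le_mul a2 hr (by positivity) (by positivity)
          _ = _ := by ring
      linarith
    · positivity
  have t2 : c0 U ξ p * Real.exp (-(bP R m p).1 l) ≤ 8 * w * r := by
    have a5 := exp_y_le hp l
    exact mul_le_mul a2 (a5.trans hr) (Real.exp_pos _).le (by positivity)
  have t3 : 2 * U.A * (c0 U ξ p * Real.exp (-(bP R m p).1 l) + c1 U ξ p (ey l)) ≤
      2 * U.A * (8 * w * r + (2 * A2 U.D + 8) * (w * r)) := by
    refine mul_le_mul_of_nonneg_left ?_ (by positivity)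
    linarith
  have e2 : (7 * A2 U.D + 24 + 64 * U.A + 4 * U.A * A2 U.D) * (w * r) =
      7 * A2 U.D * (w * r) + (24 * (w * r) + 32 * U.A * (w * r)) +
      2 * U.A * (8 * w * r + (2 * A2 U.D + 8) * (w * r)) := by ring
  rw [e2]
  linarith

end Pt

/-! ### the fields -/

variable (U : UData)

/-- **field `b2`, necks** -/
theorem neck_b2 : ∃ K N₀ : ℝ, 1 ≤ N₀ ∧ ∀ R m S, FarOk R S → ∀ p, Adm R m S N₀ p → ∀ j,
    Neck R S j → ∀ ξ, IsCl ξ → ∀ f : (W R m).Fr, ∀ d : (W R m).Dir R.Cm,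
      (d = .u f ∨ d = .ph f) →
      |lgU U R m S j ξ p ((W R m).vec d)| ≤ K * (|bt ξ ((W R m).nk f.1)| +
        ‖ξ‖ * (1 / p.2.2.1 ((W R m).nk f.1) + Real.exp (-p.1 f))) := by
  refine ⟨1 + 2 * aa U + 2 * aa U * U.A, NN U, one_le_NN U, ?_⟩
  rintro R m S - p hp j ⟨k, hk⟩ ξ - f d hd
  rw [lgU_neck U R m S hk ξ p]
  exact gap_le hk ξ hp f hd

/-- **field `b4`, necks** -/
theorem neck_b4 : ∃ K N₀ : ℝ, 1 ≤ N₀ ∧ ∀ R m S, FarOk R S → ∀ p, Adm R m S N₀ p → ∀ j,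
    Neck R S j → ∀ ξ, IsCl ξ → ∀ k, |lgU U R m S j ξ p ((W R m).vec (.al k))| ≤
      K * (|bt ξ k| + ‖ξ‖ / p.2.2.1 k) := by
  refine ⟨2 + 2 * U.A + (1 + 10 * U.A) * aa U, NN U, one_le_NN U, ?_⟩
  rintro R m S - p hp j ⟨k, hk⟩ ξ - l
  rw [lgU_neck U R m S hk ξ p]
  exact al_le hk ξ hp l

/-- **field `b5`, necks** -/
theorem neck_b5 : ∃ K N₀ : ℝ, 1 ≤ N₀ ∧ ∀ R m S, FarOk R S → ∀ p, Adm R m S N₀ p → ∀ j,
    Neck R S j → ∀ ξ, IsCl ξ → ∀ k, |lgU U R m S j ξ p ((W R m).eul p k)| ≤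
      K * (‖ξ‖ / p.2.2.1 k) := by
  refine ⟨(2 + 4 * U.A) * aa U, NN U, one_le_NN U, ?_⟩
  rintro R m S - p hp j ⟨k, hk⟩ ξ - l
  rw [lgU_neck U R m S hk ξ p]
  exact eul_le hk ξ hp l

/-- **field `b1`, necks** -/
theorem neck_b1 : ∃ K N₀ : ℝ, 1 ≤ N₀ ∧ ∀ R m S, FarOk R S → ∀ p, Adm R m S N₀ p → ∀ j,
    Neck R S j → ∀ ξ, IsCl ξ → ∀ d : (W R m).Dir R.Cm, (∀ k, d ≠ .y k) →
      |lgU U R m S j ξ p ((W R m).vec d)| ≤ K * ‖ξ‖ := by
  refine ⟨4 * (1 + 2 * aa U + 2 * aa U * U.A) + 3 * (2 + 2 * U.A + (1 + 10 * U.A) * aa U),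
    NN U, one_le_NN U, ?_⟩
  rintro R m S - p hp j ⟨k, hk⟩ ξ - d hd
  rw [lgU_neck U R m S hk ξ p]
  have hA := A_nn hp
  have ha := aa_nonneg U
  have hx := norm_nonneg ξ
  have hy1 : ∀ l, 1 ≤ p.2.2.1 l := fun l => (one_le_NN U).trans (y_ge hp l)
  have hgap : ∀ f : (W R m).Fr, (d = .u f ∨ d = .ph f) →
      |fderiv ℝ (UNp m U ξ hk) p ((W R m).vec d)| ≤
        (4 * (1 + 2 * aa U + 2 * aa U * U.A) +
          3 * (2 + 2 * U.A + (1 + 10 * U.A) * aa U)) * ‖ξ‖ := by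
    intro f hf
    have e := gap_le hk ξ hp f hf
    have b1 := abs_bt_le ξ ((W R m).nk f.1)
    have b2 : 1 / p.2.2.1 ((W R m).nk f.1) ≤ 1 := by
      have := hy1 ((W R m).nk f.1)
      rw [div_le_one (by linarith)]
      exact this
    have b3 : Real.exp (-p.1 f) ≤ 1 := by
      rw [Real.exp_le_one_iff]
      have := hp.1.1 f
      linarith
    have b4 : ‖ξ‖ * (1 / p.2.2.1 ((W R m).nk f.1) + Real.exp (-p.1 f)) ≤ ‖ξ‖ * (1 + 1) :=
      mul_le_mul_of_nonneg_left (add_le_add b2 b3) hx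
    have b5 : (1 + 2 * aa U + 2 * aa U * U.A) * (|bt ξ ((W R m).nk f.1)| +
        ‖ξ‖ * (1 / p.2.2.1 ((W R m).nk f.1) + Real.exp (-p.1 f))) ≤
        (1 + 2 * aa U + 2 * aa U * U.A) * (4 * ‖ξ‖) := by
      refine mul_le_mul_of_nonneg_left ?_ (by positivity)
      linarith
    have b6 : 0 ≤ 3 * (2 + 2 * U.A + (1 + 10 * U.A) * aa U) * ‖ξ‖ := by positivity
    linarith
  cases d with
  | u f => exact hgap f (Or.inl rfl)
  | ph f => exact hgap f (Or.inr rfl)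
  | y l => exact absurd rfl (hd l)
  | al l =>
    have e := al_le hk ξ hp l
    have b1 := abs_bt_le ξ l
    have b2 : ‖ξ‖ / p.2.2.1 l ≤ ‖ξ‖ := div_le_self hx (hy1 l)
    have b5 : (2 + 2 * U.A + (1 + 10 * U.A) * aa U) * (|bt ξ l| + ‖ξ‖ / p.2.2.1 l) ≤
        (2 + 2 * U.A + (1 + 10 * U.A) * aa U) * (3 * ‖ξ‖) := by
      refine mul_le_mul_of_nonneg_left ?_ (by positivity)
      linarith
    have b6 : 0 ≤ 4 * (1 + 2 * aa U + 2 * aa U * U.A) * ‖ξ‖ := by positivity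
    linarith
  | re c =>
    rw [neck_re U hk ξ hp.1 (fun k => (y_pos hp k).le) (big hp) (ep_lt hp) c (Or.inl rfl),
      abs_zero]
    positivity
  | im c =>
    rw [neck_re U hk ξ hp.1 (fun k => (y_pos hp k).le) (big hp) (ep_lt hp) c (Or.inr rfl),
      abs_zero]
    positivity

/-- **field `b6`, necks** -/
theorem neck_b6 : ∃ K N₀ : ℝ, 1 ≤ N₀ ∧ ∀ R m S, FarOk R S → ∀ p, Adm R m S N₀ p → ∀ j,
    Neck R S j → ∀ ξ, IsCl ξ → (∀ k, bt ξ k = 0) →
    (∀ d : (W R m).Dir R.Cm, (∀ k, d ≠ .y k) →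
      |lgU U R m S j ξ p ((W R m).vec d)| ≤ K * H562.ww ξ p.2.2.1) ∧
    ∀ k, |lgU U R m S j ξ p ((W R m).eul p k)| ≤
      K * (H562.ww ξ p.2.2.1 * (mn p.2.2.1 / p.2.2.1 k)) := by
  refine ⟨max (max (8 + 64 * U.A) (A2 U.D + 32 * U.A + 2 * U.A * A2 U.D))
    (7 * A2 U.D + 24 + 64 * U.A + 4 * U.A * A2 U.D), NN U, one_le_NN U, ?_⟩
  rintro R m S - p hp j ⟨k, hk⟩ ξ - hβ
  rw [lgU_neck U R m S hk ξ p]
  have hA := A_nn hp
  have hy := y_pos hp
  have hw : 0 ≤ H562.ww ξ p.2.2.1 := ww_nonneg ξ hy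
  have hA2 := one_le_A2 U.D
  constructor
  · intro d hd
    have hgap : ∀ f : (W R m).Fr, (d = .u f ∨ d = .ph f) →
        |fderiv ℝ (UNp m U ξ hk) p ((W R m).vec d)| ≤
          max (max (8 + 64 * U.A) (A2 U.D + 32 * U.A + 2 * U.A * A2 U.D))
            (7 * A2 U.D + 24 + 64 * U.A + 4 * U.A * A2 U.D) * H562.ww ξ p.2.2.1 :=
      fun f hf => (gap_le_a hk hβ hp f hf).trans
        (mul_le_mul_of_nonneg_right ((le_max_left _ _).trans (le_max_left _ _)) hw)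
    have h0 : 0 ≤ max (max (8 + 64 * U.A) (A2 U.D + 32 * U.A + 2 * U.A * A2 U.D))
            (7 * A2 U.D + 24 + 64 * U.A + 4 * U.A * A2 U.D) * H562.ww ξ p.2.2.1 := by
      refine mul_nonneg (le_trans ?_ (le_max_right _ _)) hw
      positivity
    cases d with
    | u f => exact hgap f (Or.inl rfl)
    | ph f => exact hgap f (Or.inr rfl)
    | y l => exact absurd rfl (hd l)
    | al l =>
      exact (al_le_a hk hβ hp l).trans
        (mul_le_mul_of_nonneg_right ((le_max_right _ _).trans (le_max_left _ _)) hw)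
    | re c =>
      rw [neck_re U hk ξ hp.1 (fun k => (y_pos hp k).le) (big hp) (ep_lt hp) c (Or.inl rfl),
        abs_zero]
      exact h0
    | im c =>
      rw [neck_re U hk ξ hp.1 (fun k => (y_pos hp k).le) (big hp) (ep_lt hp) c (Or.inr rfl),
        abs_zero]
      exact h0
  · intro l
    refine (eul_le_a hk hβ hp l).trans (mul_le_mul_of_nonneg_right (le_max_right _ _) ?_)
    exact mul_nonneg hw (div_nonneg (mn_pos hy).le (hy l).le)

end Vale.Agent.P273.H863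

end
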