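import Vale.Agent.P273.H863.NeckM

/-!
# P273, crew ASY0 (T3a): the bounds `b1, b2, b4, b5, b6` of `lgU` on the necks
-/

noncomputable section

namespace Vale.Agent.P273.H863

open Set Filter H681 H95 H732 H562 H803 H545 H722 H722.KapData H132
open scoped Topology ContDiff

/-- the smallest admissible length -/
def NN (U : UData) : ℝ := 8 * U.D.κ + 1 / U.D.ρ + 1 / U.ρ + 1

theorem one_le_NN (U : UData) : 1 ≤ NN U := by
  have h1 := U.D.κ_one
  have h2 : 0 < 1 / U.D.ρ := one_div_pos.2 U.D.ρ_pos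
  have h3 : 0 < 1 / U.ρ := one_div_pos.2 U.ρ_pos
  unfold NN
  linarith

theorem exp_lt_inv {x r : ℝ} (hr : 0 < r) (h : 1 / r < x) : Real.exp (-x) < r := by
  have h1 : 0 < 1 / r := one_div_pos.2 hr
  have hx : 0 < x := h1.trans h
  have h2 := Real.add_one_le_exp x
  have h3 : 1 / r < Real.exp x := by linarith
  rw [Real.exp_neg, inv_lt_comm₀ (Real.exp_pos x) hr, ← one_div]
  exact h3

theorem exp_le_inv' {x : ℝ} (hx : 0 < x) : Real.exp (-x) ≤ 1 / x := by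
  have h2 := Real.add_one_le_exp x
  rw [Real.exp_neg, ← one_div]
  exact one_div_le_one_div_of_le hx (by linarith)

theorem abs_bt_le (ξ : Fin 6 → ℝ) (k : Fin 3) : |bt ξ k| ≤ 2 * ‖ξ‖ := by
  have h1 : ∀ i : Fin 6, |ξ i| ≤ ‖ξ‖ := fun i => norm_le_pi_norm ξ i
  have h2 : ∀ a b : Fin 6, |ξ a - ξ b| ≤ 2 * ‖ξ‖ := fun a b =>
    (abs_sub _ _).trans (by linarith [h1 a, h1 b])
  fin_cases k
  · exact h2 1 0
  · exact h2 3 2
  · exact h2 5 4

theorem abs_xe_le (ξ : Fin 6 → ℝ) (k : Fin 3) : |xe ξ k| ≤ ‖ξ‖ := by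
  have h1 : ∀ i : Fin 6, |ξ i| ≤ ‖ξ‖ := fun i => norm_le_pi_norm ξ i
  fin_cases k
  · exact h1 1
  · exact h1 3
  · exact h1 5

theorem sz_le (ξ : Fin 6 → ℝ) : sz (xeF ξ) (btF ξ) ≤ 3 * ‖ξ‖ := by
  have h1 : ‖xeF ξ‖ ≤ ‖ξ‖ :=
    (pi_norm_le_iff_of_nonneg (norm_nonneg _)).2 fun k => abs_xe_le ξ k
  have h2 : ‖btF ξ‖ ≤ 2 * ‖ξ‖ :=
    (pi_norm_le_iff_of_nonneg (by positivity)).2 fun k => abs_bt_le ξ k
  unfold sz
  linarith

/-- `3 A₀(7)` -/
def aa (U : UData) : ℝ := 3 * U.D.A0 7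

theorem A0_nonneg (U : UData) : 0 ≤ U.D.A0 7 := by
  have hκ := U.D.κ_one
  have hn : (0 : ℝ) ≤ nn (Fin 3) := KapData.nn_nonneg
  unfold KapData.A0 KapData.W0 KapData.B0
  positivity

theorem aa_nonneg (U : UData) : 0 ≤ aa U := by
  have := A0_nonneg U
  unfold aa
  linarith

section Pt

variable {U : UData} {R : H95.Region} {m : ∀ k, Fin (R.n k + 1)} {S : L → Bool} {p : Co R m}

/-- the smallest length of the base -/
def M0 (p : Co R m) : ℝ := mn p.2.2.1 + 2 * Real.log 16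

theorem y_ge (hp : Adm R m S (NN U) p) (k : Fin 3) : NN U ≤ p.2.2.1 k := hp.2.1 k

theorem y_pos (hp : Adm R m S (NN U) p) (k : Fin 3) : 0 < p.2.2.1 k :=
  lt_of_lt_of_le one_pos ((one_le_NN U).trans (y_ge hp k))

theorem mn_le (y : Fin 3 → ℝ) (k : Fin 3) : mn y ≤ y k := by
  unfold mn
  fin_cases k
  · exact min_le_left _ _
  · exact (min_le_right _ _).trans (min_le_left _ _)
  · exact (min_le_right _ _).trans (min_le_right _ _)

theorem exists_le_mn (y : Fin 3 → ℝ) : ∃ l, y l ≤ mn y := by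
  unfold mn
  rcases le_total (y 0) (min (y 1) (y 2)) with h | h
  · exact ⟨0, by rw [min_eq_left h]⟩
  · rw [min_eq_right h]
    rcases le_total (y 1) (y 2) with h' | h'
    · exact ⟨1, by rw [min_eq_left h']⟩
    · exact ⟨2, by rw [min_eq_right h']⟩

theorem le_mn {y : Fin 3 → ℝ} {a : ℝ} (h : ∀ k, a ≤ y k) : a ≤ mn y :=
  le_min (h 0) (le_min (h 1) (h 2))

theorem big (hp : Adm R m S (NN U) p) : U.D.Big (M0 p) (bP R m p) := by
  have hl := log16_pos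
  have h2 : 0 < 1 / U.D.ρ := one_div_pos.2 U.D.ρ_pos
  have h3 : 0 < 1 / U.ρ := one_div_pos.2 U.ρ_pos
  have hm : NN U ≤ mn p.2.2.1 := le_mn fun k => y_ge hp k
  have hle : ∀ k, M0 p ≤ (bP R m p).1 k := fun k => by
    rw [bP_fst]
    have := mn_le p.2.2.1 k
    unfold M0
    linarith
  refine ⟨hle, ?_, ?_, ?_⟩
  · obtain ⟨l, hl⟩ := exists_le_mn p.2.2.1
    refine ⟨l, ?_⟩
    rw [bP_fst]
    unfold M0
    linarith
  · unfold NN at hm
    unfold M0
    linarith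
  · refine (KapData.norm_ep_le hle).trans_lt (exp_lt_inv U.D.ρ_pos ?_)
    have := U.D.κ_one
    unfold NN at hm
    unfold M0
    linarith

theorem ep_lt (hp : Adm R m S (NN U) p) : ‖ep (bP R m p)‖ < U.ρ := by
  have hl := log16_pos
  have h2 : 0 < 1 / U.D.ρ := one_div_pos.2 U.D.ρ_pos
  have h3 : 0 < 1 / U.ρ := one_div_pos.2 U.ρ_pos
  have hm : NN U ≤ mn p.2.2.1 := le_mn fun k => y_ge hp k
  refine (KapData.norm_ep_le (big hp).le).trans_lt (exp_lt_inv U.ρ_pos ?_)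
  have := U.D.κ_one
  unfold NN at hm
  unfold M0
  linarith

theorem abs_al_le (hp : Adm R m S (NN U) p) (k : Fin 3) : |(bP R m p).2 k| ≤ 7 := by
  have h1 := hp.2.2.1 k
  rw [bP_snd, abs_le]
  constructor <;> linarith [h1.1, h1.2]

theorem yk_le (p : Co R m) (k : Fin 3) : p.2.2.1 k ≤ (bP R m p).1 k := by
  rw [bP_fst]
  linarith [log16_pos]

theorem eight_le (hp : Adm R m S (NN U) p) (k : Fin 3) : 8 ≤ (bP R m p).1 k :=
  (big hp).pos.trans ((big hp).le k)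

/-- the largest gap is long -/
theorem exp_ul_le (hp : Adm R m S (NN U) p) (k : Fin 3) :
    Real.exp (-(W R m).ul p k) ≤ 17 / p.2.2.1 k := by
  have hy := y_pos hp
  have h1 := y_le_ul hp.1 (fun k => (hy k).le) k
  have h2 : 0 < (W R m).ul p k := by
    have := hy k
    linarith
  refine (exp_le_inv' h2).trans ?_
  rw [div_le_div_iff₀ h2 (hy k)]
  linarith

theorem exp_ul_le_one (hp : Adm R m S (NN U) p) (k : Fin 3) :
    Real.exp (-(W R m).ul p k) ≤ 1 := by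
  rw [Real.exp_le_one_iff]
  have := ul_nonneg hp.1 (fun k => (y_pos hp k).le) k
  linarith

theorem exp_y_le (hp : Adm R m S (NN U) p) (l : Fin 3) :
    Real.exp (-(bP R m p).1 l) ≤ 1 / p.2.2.1 l := by
  have h1 := eight_le hp l
  exact (exp_le_inv' (by linarith)).trans (one_div_le_one_div_of_le (y_pos hp l) (yk_le p l))

theorem exp_y_le_one (hp : Adm R m S (NN U) p) (l : Fin 3) :
    Real.exp (-(bP R m p).1 l) ≤ 1 := by
  rw [Real.exp_le_one_iff]
  have := eight_le hp l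
  linarith

/-! ### the base quantities, general classes -/

/-- `A₀(7) (‖ξ'‖ + ‖β‖)` -/
def ZZ (U : UData) (ξ : Fin 6 → ℝ) : ℝ := U.D.A0 7 * sz (xeF ξ) (btF ξ)

theorem ZZ_nonneg (U : UData) (ξ : Fin 6 → ℝ) : 0 ≤ ZZ U ξ :=
  mul_nonneg (A0_nonneg U) (KapData.sz_nonneg _ _)

theorem ZZ_le (U : UData) (ξ : Fin 6 → ℝ) : ZZ U ξ ≤ aa U * ‖ξ‖ := by
  have h1 := mul_le_mul_of_nonneg_left (sz_le ξ) (A0_nonneg U)
  unfold ZZ aa
  linarith

variable (ξ : Fin 6 → ℝ)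

theorem w0_le (hp : Adm R m S (NN U) p) (k : Fin 3) : |w0 U ξ p k| ≤ ZZ U ξ :=
  (KapData.bounds_v (big hp) (abs_al_le hp) (xeF ξ) (btF ξ)).2.1 k

theorem c0_le (hp : Adm R m S (NN U) p) : c0 U ξ p ≤ ZZ U ξ / 5 :=
  (nums (big hp) (abs_al_le hp) (xeF ξ) (btF ξ)).2.2.2

theorem w1_ey_le (hp : Adm R m S (NN U) p) (k l : Fin 3) :
    |w1 U ξ p k (ey l)| ≤ ZZ U ξ / p.2.2.1 l := by
  have h1 := (KapData.bounds_y (big hp) (abs_al_le hp) (xeF ξ) (btF ξ) l).2.1 k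
  have h2 := eight_le hp l
  have h3 := (big hp).le l
  have hZ := ZZ_nonneg U ξ
  refine h1.trans ?_
  have h4 : M0 p / (bP R m p).1 l ^ 2 ≤ 1 / (bP R m p).1 l := by
    rw [div_le_div_iff₀ (by positivity) (by linarith)]
    nlinarith
  have h5 : 1 / (bP R m p).1 l ≤ 1 / p.2.2.1 l :=
    one_div_le_one_div_of_le (y_pos hp l) (yk_le p l)
  calc _ ≤ ZZ U ξ * (1 / p.2.2.1 l) := mul_le_mul_of_nonneg_left (h4.trans h5) hZ
    _ = _ := by ring

theorem c1_ey_le (hp : Adm R m S (NN U) p) (l : Fin 3) :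
    c1 U ξ p (ey l) ≤ ZZ U ξ / p.2.2.1 l := by
  have h1 := (norm_ccD_le U.D (xeF ξ) (btF ξ) (bP R m p) (ey l)).trans
    (norm_xx_y (big hp) (abs_al_le hp) (xeF ξ) (btF ξ) l)
  have h2 := eight_le hp l
  have hZ := ZZ_nonneg U ξ
  refine h1.trans ?_
  have h5 : 1 / (bP R m p).1 l ≤ 1 / p.2.2.1 l :=
    one_div_le_one_div_of_le (y_pos hp l) (yk_le p l)
  have h4 : 4 / (bP R m p).1 l ^ 2 ≤ 1 / (bP R m p).1 l := by
    rw [div_le_div_iff₀ (by positivity) (by linarith)]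
    nlinarith
  calc 4 * (U.D.A0 7 * sz (xeF ξ) (btF ξ)) / (bP R m p).1 l ^ 2
      = ZZ U ξ * (4 / (bP R m p).1 l ^ 2) := by unfold ZZ; ring
    _ ≤ ZZ U ξ * (1 / p.2.2.1 l) := mul_le_mul_of_nonneg_left (h4.trans h5) hZ
    _ = _ := by ring

theorem w1_ea_le (hp : Adm R m S (NN U) p) (k l : Fin 3) :
    |w1 U ξ p k (ea l)| ≤ |bt ξ l| + ZZ U ξ / (bP R m p).1 l := by
  have h1 := (KapData.bounds_a (big hp) (abs_al_le hp) (xeF ξ) (btF ξ) l).2.2.2 k
  have hM : ∀ k, 0 < (bP R m p).1 k := fun k => by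
    have := eight_le hp k
    linarith
  have r1 := rr_le_one hM l
  have r0 := (rr_pos hM l).le
  have h2 : |(rr (bP R m p).1 l - if k = l then 1 else 0) * (btF ξ l / (2 * Real.pi))| ≤
      |bt ξ l| := by
    rw [abs_mul]
    have a1 : |rr (bP R m p).1 l - if k = l then 1 else 0| ≤ 1 := by
      rw [abs_le]
      split_ifs
      · constructor <;> linarith
      · constructor <;> linarith
    have a2 : |btF ξ l / (2 * Real.pi)| ≤ |bt ξ l| := by
      rw [abs_div, abs_of_pos (by positivity : (0 : ℝ) < 2 * Real.pi)]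
      exact div_le_self (abs_nonneg _) (by linarith [Real.pi_gt_three])
    calc _ ≤ 1 * |bt ξ l| := mul_le_mul a1 a2 (abs_nonneg _) (by norm_num)
      _ = _ := one_mul _
  have h3 := abs_add_le (w1 U ξ p k (ea l) -
    (rr (bP R m p).1 l - if k = l then 1 else 0) * (btF ξ l / (2 * Real.pi)))
    ((rr (bP R m p).1 l - if k = l then 1 else 0) * (btF ξ l / (2 * Real.pi)))
  rw [sub_add_cancel] at h3
  have h4 : |w1 U ξ p k (ea l) -
    (rr (bP R m p).1 l - if k = l then 1 else 0) * (btF ξ l / (2 * Real.pi))| ≤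
      ZZ U ξ / (bP R m p).1 l := h1
  linarith

theorem c1_ea_le (hp : Adm R m S (NN U) p) (l : Fin 3) :
    c1 U ξ p (ea l) ≤ |bt ξ l| + ZZ U ξ / (bP R m p).1 l := by
  have hZ := ZZ_nonneg U ξ
  have hyl : 0 < (bP R m p).1 l := by
    have := eight_le hp l
    linarith
  have h0 : 0 ≤ |bt ξ l| + ZZ U ξ / (bP R m p).1 l := by positivity
  refine (norm_ccD_le U.D (xeF ξ) (btF ξ) (bP R m p) (ea l)).trans
    ((pi_norm_le_iff_of_nonneg h0).2 fun k => ?_)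
  have h8 := eight_le hp k
  have h5 : (ea l : Pa (Fin 3)).1 k = 0 := rfl
  rw [fderiv_xx (big hp) (xeF ξ) (btF ξ) (ea l) k, Real.norm_eq_abs, abs_mul,
    abs_of_pos (by positivity), h5, zero_div, zero_mul, sub_zero]
  have h1 : |fderiv ℝ (fun q => U.D.wf (xeF ξ) (btF ξ) q k) (bP R m p) (ea l)| ≤
    |bt ξ l| + ZZ U ξ / (bP R m p).1 l := w1_ea_le ξ hp k l
  calc _ ≤ 1 * (|bt ξ l| + ZZ U ξ / (bP R m p).1 l) := by
        refine mul_le_mul ?_ h1 (abs_nonneg _) (by norm_num)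
        rw [div_le_one (by linarith)]
        linarith
    _ = _ := one_mul _

/-! ### the base quantities, classes constant on the pairs -/

theorem wa_le (hp : Adm R m S (NN U) p) : wa (xeF ξ) (bP R m p) ≤ H562.ww ξ p.2.2.1 := by
  unfold wa H562.ww
  refine Finset.sum_le_sum fun k _ => ?_
  exact div_le_div_of_nonneg_left (abs_nonneg _) (y_pos hp k) (yk_le p k)

variable {ξ} (hβ : ∀ k, bt ξ k = 0)

include hβ

theorem btF_zero : btF ξ = 0 := funext hβ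

theorem w0_le_a (hp : Adm R m S (NN U) p) (k : Fin 3) :
    2 * |w0 U ξ p k| / (bP R m p).1 k ≤ 8 * H562.ww ξ p.2.2.1 := by
  have h8 := eight_le hp k
  have h1 := (alpha0 (big hp) (xeF ξ)).2.2.2 k
  have h2 := wa_le ξ hp
  have h3 : |w0 U ξ p k| ≤ 4 * wa (xeF ξ) (bP R m p) * (bP R m p).1 k := by
    unfold w0
    rw [btF_zero hβ]
    exact h1
  rw [div_le_iff₀ (by linarith)]
  have h4 : 4 * wa (xeF ξ) (bP R m p) * (bP R m p).1 k ≤
      4 * H562.ww ξ p.2.2.1 * (bP R m p).1 k := by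
    refine mul_le_mul_of_nonneg_right ?_ (by linarith)
    linarith
  linarith

theorem c0_le_a (hp : Adm R m S (NN U) p) : c0 U ξ p ≤ 8 * H562.ww ξ p.2.2.1 := by
  have h1 := cc_alpha (big hp) (xeF ξ)
  have h2 := wa_le ξ hp
  unfold c0
  rw [btF_zero hβ]
  linarith

theorem w1_ey_le_a (hp : Adm R m S (NN U) p) (k l : Fin 3) :
    |w1 U ξ p k (ey l)| ≤
      7 * A2 U.D * (H562.ww ξ p.2.2.1 * (mn p.2.2.1 / p.2.2.1 l)) := by
  have h1 := (alpha_y (big hp) (xeF ξ) l).2.1 k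
  have h2 := wa_le ξ hp
  have h0 := wa_nonneg (big hp) (xeF ξ)
  have hA2 := one_le_A2 U.D
  have hyl := y_pos hp l
  have hN := one_le_NN U
  have hmn : 1 ≤ mn p.2.2.1 := le_mn fun k => hN.trans (y_ge hp k)
  have h3 : M0 p ≤ 7 * mn p.2.2.1 := by
    have := log16_le
    unfold M0
    linarith
  have h4 : M0 p / (bP R m p).1 l ≤ 7 * mn p.2.2.1 / p.2.2.1 l :=
    div_le_div₀ (by positivity) h3 hyl (yk_le p l)
  have h5 : w1 U ξ p k (ey l) = fderiv ℝ (fun q => U.D.wf (xeF ξ) 0 q k) (bP R m p) (ey l) := by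
    unfold w1
    rw [btF_zero hβ]
  rw [h5]
  have h8 := eight_le hp l
  have hM := (big hp).pos
  calc _ ≤ A2 U.D * wa (xeF ξ) (bP R m p) * (M0 p / (bP R m p).1 l) := h1
    _ ≤ A2 U.D * H562.ww ξ p.2.2.1 * (7 * mn p.2.2.1 / p.2.2.1 l) := by
        refine mul_le_mul (mul_le_mul_of_nonneg_left h2 (by linarith)) h4 (by positivity) ?_
        exact mul_nonneg (by linarith) (h0.trans h2)
    _ = _ := by ring

theorem c1_ey_le_a (hp : Adm R m S (NN U) p) (l : Fin 3) :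
    c1 U ξ p (ey l) ≤
      (2 * A2 U.D + 8) * (H562.ww ξ p.2.2.1 * (mn p.2.2.1 / p.2.2.1 l)) := by
  have h1 := (norm_ccD_le U.D (xeF ξ) 0 (bP R m p) (ey l)).trans
    (alpha_y (big hp) (xeF ξ) l).2.2
  have h2 := wa_le ξ hp
  have h0 := wa_nonneg (big hp) (xeF ξ)
  have hA2 := one_le_A2 U.D
  have hyl := y_pos hp l
  have hN := one_le_NN U
  have hmn : 1 ≤ mn p.2.2.1 := le_mn fun k => hN.trans (y_ge hp k)
  have h4 : 1 / (bP R m p).1 l ≤ mn p.2.2.1 / p.2.2.1 l :=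
    div_le_div₀ (by linarith) hmn hyl (yk_le p l)
  have h8 := eight_le hp l
  unfold c1
  rw [btF_zero hβ]
  calc _ ≤ (2 * A2 U.D + 8) * wa (xeF ξ) (bP R m p) / (bP R m p).1 l := h1
    _ = (2 * A2 U.D + 8) * wa (xeF ξ) (bP R m p) * (1 / (bP R m p).1 l) := by ring
    _ ≤ (2 * A2 U.D + 8) * H562.ww ξ p.2.2.1 * (mn p.2.2.1 / p.2.2.1 l) := by
        refine mul_le_mul (mul_le_mul_of_nonneg_left h2 (by linarith)) h4 (by positivity) ?_
        exact mul_nonneg (by linarith) (h0.trans h2)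
    _ = _ := by ring

theorem w1_ea_le_a (hp : Adm R m S (NN U) p) (k l : Fin 3) :
    |w1 U ξ p k (ea l)| ≤ A2 U.D * H562.ww ξ p.2.2.1 := by
  have h1 := (alpha_a (big hp) (xeF ξ) l).2.1 k
  have h2 := wa_le ξ hp
  have h0 := wa_nonneg (big hp) (xeF ξ)
  have hA2 := one_le_A2 U.D
  have h3 := exp_y_le_one hp l
  have h5 : w1 U ξ p k (ea l) = fderiv ℝ (fun q => U.D.wf (xeF ξ) 0 q k) (bP R m p) (ea l) := by
    unfold w1
    rw [btF_zero hβ]
  rw [h5]
  refine h1.trans ((mul_le_of_le_one_right (by positivity) h3).trans ?_)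
  exact mul_le_mul_of_nonneg_left h2 (by linarith)

theorem c1_ea_le_a (hp : Adm R m S (NN U) p) (l : Fin 3) :
    c1 U ξ p (ea l) ≤ A2 U.D * H562.ww ξ p.2.2.1 := by
  have h1 := (norm_ccD_le U.D (xeF ξ) 0 (bP R m p) (ea l)).trans
    (alpha_a (big hp) (xeF ξ) l).2.2
  have h2 := wa_le ξ hp
  have h0 := wa_nonneg (big hp) (xeF ξ)
  have hA2 := one_le_A2 U.D
  have h3 := exp_y_le_one hp l
  unfold c1
  rw [btF_zero hβ]
  refine h1.trans ((mul_le_of_le_one_right (by positivity) h3).trans ?_)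
  exact mul_le_mul_of_nonneg_left h2 (by linarith)

end Pt

end Vale.Agent.P273.H863

end
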