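import Vale.Agent.P273.H863.DirTab
import Vale.Agent.P273.H803.AsyQ
import Vale.Agent.P273.H545.KapAlpha

/-!
# P273, crew ASY0 (T3a): the derivative of the neck potential on the directions of the log chart

`master`: every direction; `neck_gap`, `neck_al`, `neck_eul`: gap directions, base angles, Euler
vectors, in terms of `ω = 2 |w| / y`, `c = ‖cc‖` and the derivatives of `w`, `cc` in the base.
-/

noncomputable section

namespace Vale.Agent.P273.H863

open Set Filter H681 H95 H732 H562 H803 H545 H722 H132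
open scoped Topology ContDiff

variable (U : UData) {R : H95.Region} {m : ∀ k, Fin (R.n k + 1)} {j : L} {k : Fin 3}
  (h : R.pl j = Sum.inl k) (ξ : Fin 6 → ℝ) {p : Co R m} {M : ℝ}

/-- the weighted slope at the point -/
def w0 (p : Co R m) (k : Fin 3) : ℝ := U.D.wf (xeF ξ) (btF ξ) (bP R m p) k

/-- its derivative in a base direction -/
def w1 (p : Co R m) (k : Fin 3) (b : Pa (Fin 3)) : ℝ :=
  fderiv ℝ (fun q => U.D.wf (xeF ξ) (btF ξ) q k) (bP R m p) b

/-- the size of the coefficients -/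
def c0 (p : Co R m) : ℝ := ‖cc U.D (xeF ξ) (btF ξ) (bP R m p)‖

/-- the size of their derivative in a base direction -/
def c1 (p : Co R m) (b : Pa (Fin 3)) : ℝ := ‖ccD U.D (xeF ξ) (btF ξ) (bP R m p) b‖

theorem c0_nonneg (p : Co R m) : 0 ≤ c0 U ξ p := norm_nonneg _

theorem c1_nonneg (p : Co R m) (b : Pa (Fin 3)) : 0 ≤ c1 U ξ p b := norm_nonneg _

theorem A_nonneg (hρ : ‖ep (bP R m p)‖ < U.ρ) : 0 ≤ U.A :=
  (norm_nonneg _).trans (U.h_le 0 (ep (bP R m p)) 0 hρ (by simp))

/-- **every direction** -/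
theorem master (hb : U.D.Big M (bP R m p)) (hρ : ‖ep (bP R m p)‖ < U.ρ)
    (hS0 : 0 ≤ SX m h p) (hS1 : SX m h p ≤ (bP R m p).1 k) (v : Co R m) :
    |fderiv ℝ (UNp m U ξ h) p v| ≤ |w1 U ξ p k (bC R m v)| +
      2 * |w0 U ξ p k| / (bP R m p).1 k *
        |SC m h v - SX m h p / (bP R m p).1 k * (bC R m v).1 k| +
      |bt ξ k| / Real.pi * |TC m h v - 1 / 2 * (bC R m v).2 k| +
      U.A * Real.exp (-SX m h p) * (c0 U ξ p * (2 * (|SC m h v| + |TC m h v|) +
        ‖dep (bP R m p) (bC R m v)‖) + c1 U ξ p (bC R m v)) +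
      U.A * Real.exp (-((bP R m p).1 k - SX m h p)) *
        (c0 U ξ p * (2 * (|(bC R m v).1 k - SC m h v| + |(bC R m v).2 k - TC m h v|) +
        ‖dep (bP R m p) (bC R m v)‖) + c1 U ξ p (bC R m v)) := by
  have hM := hb.pos
  have hy0 : 0 < (bP R m p).1 k := by
    have := hb.le k
    linarith
  set X0 : ℂ := ex (SX m h) (TX m h) p with hX0
  set Y0 : ℂ := ex (fun q => (bP R m q).1 k - SX m h q) (fun q => (bP R m q).2 k - TX m h q) p
    with hY0
  have nX : ‖X0‖ = Real.exp (-SX m h p) := norm_ex _ _ p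
  have nY : ‖Y0‖ = Real.exp (-((bP R m p).1 k - SX m h p)) := norm_ex _ _ p
  have bX : ‖X0‖ ≤ 1 := by
    rw [nX, Real.exp_le_one_iff]
    linarith
  have bY : ‖Y0‖ ≤ 1 := by
    rw [nY, Real.exp_le_one_iff]
    linarith
  have dX := (U.h_diff k (ep (bP R m p)) X0 hρ bX).hasFDerivAt
  have dY := (U.h_diff k (ep (bP R m p)) Y0 hρ bY).hasFDerivAt
  have dp : HasFDerivAt (fun q => ep (bP R m q)) ((dep (bP R m p)).comp (bC R m)) p :=
    (hasFDerivAt_ep (bP R m p)).comp p (hasFDerivAt_bP R m p)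
  let yk : Co R m →L[ℝ] ℝ := (ContinuousLinearMap.proj (R := ℝ) (φ := fun _ : Fin 3 => ℝ) k).comp
    ((ContinuousLinearMap.fst ℝ (Fin 3 → ℝ) (Fin 3 → ℝ)).comp (bC R m))
  let ak : Co R m →L[ℝ] ℝ := (ContinuousLinearMap.proj (R := ℝ) (φ := fun _ : Fin 3 => ℝ) k).comp
    ((ContinuousLinearMap.snd ℝ (Fin 3 → ℝ) (Fin 3 → ℝ)).comp (bC R m))
  have dy : HasFDerivAt (fun q => (bP R m q).1 k) yk p :=
    ((ContinuousLinearMap.proj (R := ℝ) (φ := fun _ : Fin 3 => ℝ) k).comp
      (ContinuousLinearMap.fst ℝ (Fin 3 → ℝ) (Fin 3 → ℝ))).hasFDerivAt.comp p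
      (hasFDerivAt_bP R m p)
  have da : HasFDerivAt (fun q => (bP R m q).2 k) ak p :=
    ((ContinuousLinearMap.proj (R := ℝ) (φ := fun _ : Fin 3 => ℝ) k).comp
      (ContinuousLinearMap.snd ℝ (Fin 3 → ℝ) (Fin 3 → ℝ))).hasFDerivAt.comp p
      (hasFDerivAt_bP R m p)
  have dw : HasFDerivAt (fun q => U.D.wf (xeF ξ) (btF ξ) (bP R m q) k)
      ((fderiv ℝ (fun q => U.D.wf (xeF ξ) (btF ξ) q k) (bP R m p)).comp (bC R m)) p :=
    HasFDerivAt.comp (g := fun q => U.D.wf (xeF ξ) (btF ξ) q k) p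
      (((KapData.contDiffAt_wf hb (xeF ξ) (btF ξ) k).differentiableAt (by simp)).hasFDerivAt)
      (hasFDerivAt_bP R m p)
  have dc : HasFDerivAt (fun q => cc U.D (xeF ξ) (btF ξ) (bP R m q))
      ((ccD U.D (xeF ξ) (btF ξ) (bP R m p)).comp (bC R m)) p :=
    (hasFDerivAt_cc hb (xeF ξ) (btF ξ)).comp p (hasFDerivAt_bP R m p)
  have key := hasFDerivAt_UN (h := U.h k) (ξ := xe ξ k) (β := bt ξ k)
    (p := fun q => ep (bP R m q)) (S := SX m h) (Θ := TX m h) (y := fun q => (bP R m q).1 k)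
    (α := fun q => (bP R m q).2 k) (w := fun q => U.D.wf (xeF ξ) (btF ξ) (bP R m q) k)
    (c := fun q => cc U.D (xeF ξ) (btF ξ) (bP R m q)) (q := p) hy0.ne' dX dY dp
    (hasFDerivAt_SX m h p) (hasFDerivAt_TX m h p) dy da dw dc
  have e1 : fderiv ℝ (UNp m U ξ h) p = _ := key.fderiv
  rw [e1]
  refine (UN_bound (U.h_le k _ _ hρ bX) (U.h_le k _ _ hρ bY) (U.h'_le k _ _ hρ bX)
    (U.h'_le k _ _ hρ bY) bX bY hS0 hS1 hy0 v).trans (le_of_eq ?_)
  rw [nX, nY]
  rfl

/-! ### depths -/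

theorem log16_le : Real.log 16 ≤ 3 := by
  rw [Real.log_le_iff_le_exp (by norm_num)]
  have h1 := Real.add_one_le_exp (1 : ℝ)
  have h2 : (2.7 : ℝ) ≤ Real.exp 1 := by
    have := Real.exp_one_gt_d9
    linarith
  have h3 : Real.exp 3 = Real.exp 1 ^ 3 := by
    rw [← Real.exp_nat_mul]
    norm_num
  rw [h3]
  calc (16 : ℝ) ≤ 2.7 ^ 3 := by norm_num
    _ ≤ Real.exp 1 ^ 3 := pow_le_pow_left₀ (by norm_num) h2 3

theorem mul_exp_le {s : ℝ} : s * Real.exp (-s) ≤ 1 := by
  have h1 := Real.add_one_le_exp s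
  have h2 : s ≤ Real.exp s := by linarith
  have h3 := mul_le_mul_of_nonneg_right h2 (Real.exp_pos (-s)).le
  rw [← Real.exp_add, add_neg_cancel, Real.exp_zero] at h3
  exact h3

theorem log16_pos : 0 < Real.log 16 := Real.log_pos (by norm_num)

theorem SX_eq (p : Co R m) : SX m h p = Real.log 16 + wreg.dep m p k (rkF R h) := by
  unfold SX
  rw [LX_re]
  ring

theorem sub_SX_eq (p : Co R m) : (bP R m p).1 k - SX m h p =
    Real.log 16 + (p.2.2.1 k - wreg.dep m p k (rkF R h)) := by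
  rw [SX_eq]
  show p.2.2.1 k + 2 * Real.log 16 - (Real.log 16 + wreg.dep m p k (rkF R h)) = _
  ring

theorem bP_fst (p : Co R m) (k : Fin 3) : (bP R m p).1 k = p.2.2.1 k + 2 * Real.log 16 := rfl

theorem bP_snd (p : Co R m) : (bP R m p).2 = p.2.2.2.1 := rfl

section Pt

variable (hp : (W R m).Inr p) (hy : ∀ k, 0 ≤ p.2.2.1 k)

include hp hy

theorem dep_nonneg : 0 ≤ wreg.dep m p k (rkF R h) :=
  wreg.dep_nonneg m hp (ul_nonneg hp hy) k _

theorem dep_le : wreg.dep m p k (rkF R h) ≤ p.2.2.1 k :=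
  wreg.dep_le m hp (ul_nonneg hp hy) k _

theorem SX_nonneg : 0 ≤ SX m h p := by
  rw [SX_eq]
  have := dep_nonneg h hp hy
  have := log16_pos
  linarith

theorem SX_le : SX m h p ≤ (bP R m p).1 k := by
  have h1 := sub_SX_eq h p
  have := dep_le h hp hy
  have := log16_pos
  linarith

theorem exp_SX_le {a : ℝ} (ha : a ≤ wreg.dep m p k (rkF R h)) :
    Real.exp (-SX m h p) ≤ Real.exp (-a) := by
  rw [Real.exp_le_exp, SX_eq]
  have := log16_pos
  linarith

theorem exp_sub_SX_le {a : ℝ} (ha : a ≤ p.2.2.1 k - wreg.dep m p k (rkF R h)) :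
    Real.exp (-((bP R m p).1 k - SX m h p)) ≤ Real.exp (-a) := by
  rw [Real.exp_le_exp, sub_SX_eq]
  have := log16_pos
  linarith

theorem exp_SX_le_one : Real.exp (-SX m h p) ≤ 1 := by
  rw [Real.exp_le_one_iff]
  have := SX_nonneg h hp hy
  linarith

theorem exp_sub_SX_le_one : Real.exp (-((bP R m p).1 k - SX m h p)) ≤ 1 := by
  rw [Real.exp_le_one_iff]
  have := SX_le h hp hy
  linarith

/-- **gap directions** -/
theorem neck_gap (hb : U.D.Big M (bP R m p)) (hρ : ‖ep (bP R m p)‖ < U.ρ) (f : (W R m).Fr)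
    {d : (W R m).Dir R.Cm} (hd : d = .u f ∨ d = .ph f) :
    |fderiv ℝ (UNp m U ξ h) p ((W R m).vec d)| ≤
      if f.1.1 = k then 2 * |w0 U ξ p k| / (bP R m p).1 k + |bt ξ k| +
        8 * U.A * c0 U ξ p * Real.exp (-p.1 f) else 0 := by
  have hA := A_nonneg U hρ
  have hc := c0_nonneg U ξ p
  have hM := hb.pos
  have hy0 : 0 < (bP R m p).1 k := by
    have := hb.le k
    linarith
  have hbC : bC R m ((W R m).vec d) = 0 := bC_gap R m hd
  have e := master U h ξ hb hρ (SX_nonneg h hp hy) (SX_le h hp hy) ((W R m).vec d)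
  rw [hbC] at e
  have z1 : w1 U ξ p k (0 : Pa (Fin 3)) = 0 := map_zero _
  have z2 : c1 U ξ p (0 : Pa (Fin 3)) = 0 := by
    unfold c1
    rw [map_zero, norm_zero]
  have z3 : ‖dep (bP R m p) 0‖ = 0 := by rw [map_zero, norm_zero]
  have z4 : (0 : Pa (Fin 3)).1 k = 0 := rfl
  have z5 : (0 : Pa (Fin 3)).2 k = 0 := rfl
  rw [z1, z2, z3, z4, z5, abs_zero, zero_add, mul_zero, mul_zero, sub_zero, sub_zero, add_zero,
    add_zero, zero_sub, zero_sub, abs_neg, abs_neg] at e
  rcases gap_split hp (ul_nonneg hp hy) k (rkF R h) f hd with h0 | ⟨h1, h2, h3⟩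
  · have s1 : SC m h ((W R m).vec d) = 0 := by
      rw [SC_apply, h0]
      simp
    have s2 : TC m h ((W R m).vec d) = 0 := by
      rw [TC_apply, h0]
      simp
    rw [s1, s2] at e
    simp only [abs_zero, mul_zero, add_zero] at e
    refine e.trans ?_
    split_ifs
    · positivity
    · exact le_rfl
  · rw [if_pos h1]
    have n1 := (W R m).norm_lS_vec_le (C := R.Cm) (wreg.bef R.n k (rkF R h)) d
    have s1 : |SC m h ((W R m).vec d)| ≤ 1 := by
      rw [SC_apply, abs_neg]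
      exact (Complex.abs_re_le_norm _).trans n1
    have s2 : |TC m h ((W R m).vec d)| ≤ 1 := by
      rw [TC_apply]
      exact (Complex.abs_im_le_norm _).trans n1
    have x1 := exp_SX_le h hp hy h2
    have x2 := exp_sub_SX_le h hp hy h3
    have t1 : 2 * |w0 U ξ p k| / (bP R m p).1 k * |SC m h ((W R m).vec d)| ≤
        2 * |w0 U ξ p k| / (bP R m p).1 k := mul_le_of_le_one_right (by positivity) s1
    have t2 : |bt ξ k| / Real.pi * |TC m h ((W R m).vec d)| ≤ |bt ξ k| :=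
      (mul_le_of_le_one_right (by positivity) s2).trans
        (div_le_self (abs_nonneg _) (by linarith [Real.pi_gt_three]))
    have t3 : U.A * Real.exp (-SX m h p) * (c0 U ξ p * (2 * (|SC m h ((W R m).vec d)| +
        |TC m h ((W R m).vec d)|))) ≤ U.A * Real.exp (-p.1 f) * (c0 U ξ p * (2 * (1 + 1))) := by
      gcongr
    have t4 : U.A * Real.exp (-((bP R m p).1 k - SX m h p)) *
        (c0 U ξ p * (2 * (|SC m h ((W R m).vec d)| + |TC m h ((W R m).vec d)|))) ≤
        U.A * Real.exp (-p.1 f) * (c0 U ξ p * (2 * (1 + 1))) := by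
      gcongr
    linarith

/-- **base angles** -/
theorem neck_al (hb : U.D.Big M (bP R m p)) (hρ : ‖ep (bP R m p)‖ < U.ρ) (l : Fin 3) :
    |fderiv ℝ (UNp m U ξ h) p ((W R m).vec (.al l))| ≤ |w1 U ξ p k (ea l)| +
      (if l = k then |bt ξ k| + 2 * U.A * c0 U ξ p * Real.exp (-(W R m).ul p k) else 0) +
      2 * U.A * (c0 U ξ p * Real.exp (-(bP R m p).1 l) + c1 U ξ p (ea l)) := by
  have hA := A_nonneg U hρ
  have hc := c0_nonneg U ξ p
  have hc1 := c1_nonneg U ξ p (ea l)
  have hM := hb.pos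
  have hy0 : 0 < (bP R m p).1 k := by
    have := hb.le k
    linarith
  have hbC : bC R m ((W R m).vec (.al l)) = ea l := rfl
  have e := master U h ξ hb hρ (SX_nonneg h hp hy) (SX_le h hp hy) ((W R m).vec (.al l))
  rw [hbC] at e
  have z4 : (ea l : Pa (Fin 3)).1 k = 0 := rfl
  have hd := norm_dep_ea (bP R m p) l
  have y1 := exp_SX_le_one h hp hy
  have y2 := exp_sub_SX_le_one h hp hy
  have hsc : ∀ t : ℝ, TC m h ((W R m).vec (.al l)) = t → SC m h ((W R m).vec (.al l)) = 0 →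
      |fderiv ℝ (UNp m U ξ h) p ((W R m).vec (.al l))| ≤ |w1 U ξ p k (ea l)| +
      |bt ξ k| / Real.pi * |t - 1 / 2 * (ea l : Pa (Fin 3)).2 k| +
      2 * U.A * c0 U ξ p * (Real.exp (-SX m h p) * |t| +
        Real.exp (-((bP R m p).1 k - SX m h p)) * |(ea l : Pa (Fin 3)).2 k - t|) +
      2 * U.A * (c0 U ξ p * Real.exp (-(bP R m p).1 l) + c1 U ξ p (ea l)) := by
    intro t ht hs
    rw [ht, hs, z4] at e
    simp only [mul_zero, sub_zero, abs_zero, zero_add, add_zero] at e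
    refine e.trans ?_
    have a1 : U.A * Real.exp (-SX m h p) * (c0 U ξ p * (2 * |t| +
        ‖dep (bP R m p) (ea l)‖) + c1 U ξ p (ea l)) ≤
        2 * U.A * c0 U ξ p * (Real.exp (-SX m h p) * |t|) +
        U.A * (c0 U ξ p * Real.exp (-(bP R m p).1 l) + c1 U ξ p (ea l)) := by
      have b1 : Real.exp (-SX m h p) * (c0 U ξ p * ‖dep (bP R m p) (ea l)‖ + c1 U ξ p (ea l)) ≤
          1 * (c0 U ξ p * Real.exp (-(bP R m p).1 l) + c1 U ξ p (ea l)) := by
        gcongr
      have b2 := mul_le_mul_of_nonneg_left b1 hA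
      linarith
    have a2 : U.A * Real.exp (-((bP R m p).1 k - SX m h p)) *
        (c0 U ξ p * (2 * |(ea l : Pa (Fin 3)).2 k - t| +
        ‖dep (bP R m p) (ea l)‖) + c1 U ξ p (ea l)) ≤
        2 * U.A * c0 U ξ p * (Real.exp (-((bP R m p).1 k - SX m h p)) *
          |(ea l : Pa (Fin 3)).2 k - t|) +
        U.A * (c0 U ξ p * Real.exp (-(bP R m p).1 l) + c1 U ξ p (ea l)) := by
      have b1 : Real.exp (-((bP R m p).1 k - SX m h p)) *
          (c0 U ξ p * ‖dep (bP R m p) (ea l)‖ + c1 U ξ p (ea l)) ≤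
          1 * (c0 U ξ p * Real.exp (-(bP R m p).1 l) + c1 U ξ p (ea l)) := by
        gcongr
      have b2 := mul_le_mul_of_nonneg_left b1 hA
      linarith
    linarith
  by_cases hlk : l = k
  · subst hlk
    rw [if_pos rfl]
    have z5 : (ea l : Pa (Fin 3)).2 l = 1 := by simp [ea]
    rw [z5] at hsc
    have hhalf : |bt ξ l| / Real.pi * (1 / 2) ≤ |bt ξ l| := by
      have h1 : |bt ξ l| / Real.pi ≤ |bt ξ l| :=
        div_le_self (abs_nonneg _) (by linarith [Real.pi_gt_three])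
      have h2 : 0 ≤ |bt ξ l| := abs_nonneg _
      linarith
    rcases al_split hp (ul_nonneg hp hy) l (rkF R h) with ⟨h1, h2⟩ | ⟨h1, h2⟩
    · have s1 : SC m h ((W R m).vec (.al l)) = 0 := by
        rw [SC_apply, h1]
        simp
      have s2 : TC m h ((W R m).vec (.al l)) = 1 := by
        rw [TC_apply, h1]
        simp
      have g := hsc 1 s2 s1
      have x1 := exp_SX_le h hp hy h2
      have k1 : |(1 : ℝ) - 1 / 2 * 1| = 1 / 2 := by norm_num
      rw [k1, abs_one, sub_self, abs_zero, mul_zero, add_zero, mul_one] at g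
      have k2 : 2 * U.A * c0 U ξ p * Real.exp (-SX m h p) ≤
          2 * U.A * c0 U ξ p * Real.exp (-(W R m).ul p l) := by gcongr
      linarith
    · have s1 : SC m h ((W R m).vec (.al l)) = 0 := by
        rw [SC_apply, h1]
        simp
      have s2 : TC m h ((W R m).vec (.al l)) = 0 := by
        rw [TC_apply, h1]
        simp
      have g := hsc 0 s2 s1
      have x1 := exp_sub_SX_le h hp hy h2
      have k1 : |(0 : ℝ) - 1 / 2 * 1| = 1 / 2 := by norm_num
      rw [k1, abs_zero, sub_zero, abs_one, mul_zero, zero_add, mul_one] at g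
      have k2 : 2 * U.A * c0 U ξ p * Real.exp (-((bP R m p).1 l - SX m h p)) ≤
          2 * U.A * c0 U ξ p * Real.exp (-(W R m).ul p l) := by gcongr
      linarith
  · rw [if_neg hlk]
    have z5 : (ea l : Pa (Fin 3)).2 k = 0 := by
      simp [ea, Ne.symm hlk]
    rw [z5] at hsc
    have h1 := LX_al_ne (m := m) (C := R.Cm) k l (rkF R h) hlk
    have s1 : SC m h ((W R m).vec (.al l)) = 0 := by
      rw [SC_apply, h1]
      simp
    have s2 : TC m h ((W R m).vec (.al l)) = 0 := by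
      rw [TC_apply, h1]
      simp
    have g := hsc 0 s2 s1
    simp only [mul_zero, sub_zero, abs_zero, add_zero] at g
    linarith

/-- **Euler vectors** -/
theorem neck_eul (hb : U.D.Big M (bP R m p)) (hρ : ‖ep (bP R m p)‖ < U.ρ) (l : Fin 3)
    (hyl : 0 < p.2.2.1 l) :
    |fderiv ℝ (UNp m U ξ h) p ((W R m).eul p l)| ≤ |w1 U ξ p k (ey l)| +
      (if l = k then 2 * |w0 U ξ p k| / (bP R m p).1 k * (3 / p.2.2.1 l) +
        4 * U.A * c0 U ξ p / p.2.2.1 l else 0) +
      2 * U.A * (c0 U ξ p * Real.exp (-(bP R m p).1 l) + c1 U ξ p (ey l)) := by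
  have hA := A_nonneg U hρ
  have hc := c0_nonneg U ξ p
  have hc1 := c1_nonneg U ξ p (ey l)
  have hM := hb.pos
  have hy0 : 0 < (bP R m p).1 k := by
    have := hb.le k
    linarith
  have hbC : bC R m ((W R m).eul p l) = ey l := bC_eul R m p l
  have e := master U h ξ hb hρ (SX_nonneg h hp hy) (SX_le h hp hy) ((W R m).eul p l)
  rw [hbC] at e
  have z4 : (ey l : Pa (Fin 3)).2 k = 0 := rfl
  have hd := norm_dep_ey (bP R m p) l
  have y1 := exp_SX_le_one h hp hy
  have y2 := exp_sub_SX_le_one h hp hy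
  have hsc : ∀ t : ℝ, SC m h ((W R m).eul p l) = t → TC m h ((W R m).eul p l) = 0 →
      |fderiv ℝ (UNp m U ξ h) p ((W R m).eul p l)| ≤ |w1 U ξ p k (ey l)| +
      2 * |w0 U ξ p k| / (bP R m p).1 k *
        |t - SX m h p / (bP R m p).1 k * (ey l : Pa (Fin 3)).1 k| +
      2 * U.A * c0 U ξ p * (Real.exp (-SX m h p) * |t| +
        Real.exp (-((bP R m p).1 k - SX m h p)) * |(ey l : Pa (Fin 3)).1 k - t|) +
      2 * U.A * (c0 U ξ p * Real.exp (-(bP R m p).1 l) + c1 U ξ p (ey l)) := by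
    intro t ht hs
    rw [ht, hs, z4] at e
    simp only [mul_zero, sub_zero, abs_zero, add_zero] at e
    refine e.trans ?_
    have a1 : U.A * Real.exp (-SX m h p) * (c0 U ξ p * (2 * |t| +
        ‖dep (bP R m p) (ey l)‖) + c1 U ξ p (ey l)) ≤
        2 * U.A * c0 U ξ p * (Real.exp (-SX m h p) * |t|) +
        U.A * (c0 U ξ p * Real.exp (-(bP R m p).1 l) + c1 U ξ p (ey l)) := by
      have b1 : Real.exp (-SX m h p) * (c0 U ξ p * ‖dep (bP R m p) (ey l)‖ + c1 U ξ p (ey l)) ≤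
          1 * (c0 U ξ p * Real.exp (-(bP R m p).1 l) + c1 U ξ p (ey l)) := by
        gcongr
      have b2 := mul_le_mul_of_nonneg_left b1 hA
      linarith
    have a2 : U.A * Real.exp (-((bP R m p).1 k - SX m h p)) *
        (c0 U ξ p * (2 * |(ey l : Pa (Fin 3)).1 k - t| +
        ‖dep (bP R m p) (ey l)‖) + c1 U ξ p (ey l)) ≤
        2 * U.A * c0 U ξ p * (Real.exp (-((bP R m p).1 k - SX m h p)) *
          |(ey l : Pa (Fin 3)).1 k - t|) +
        U.A * (c0 U ξ p * Real.exp (-(bP R m p).1 l) + c1 U ξ p (ey l)) := by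
      have b1 : Real.exp (-((bP R m p).1 k - SX m h p)) *
          (c0 U ξ p * ‖dep (bP R m p) (ey l)‖ + c1 U ξ p (ey l)) ≤
          1 * (c0 U ξ p * Real.exp (-(bP R m p).1 l) + c1 U ξ p (ey l)) := by
        gcongr
      have b2 := mul_le_mul_of_nonneg_left b1 hA
      linarith
    linarith
  by_cases hlk : l = k
  · subst hlk
    rw [if_pos rfl]
    have z5 : (ey l : Pa (Fin 3)).1 l = 1 := by simp [ey]
    rw [z5] at hsc
    have h1 := LX_eul (m := m) p l (rkF R h) hyl.ne'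
    set D := wreg.dep m p l (rkF R h) with hD
    set y := p.2.2.1 l with hyd
    have s1 : SC m h ((W R m).eul p l) = D / y := by
      rw [SC_apply, h1]
      simp
    have s2 : TC m h ((W R m).eul p l) = 0 := by
      rw [TC_apply, h1]
      simp
    have g := hsc (D / y) s1 s2
    have hD0 : 0 ≤ D := dep_nonneg h hp hy
    have hD1 : D ≤ y := dep_le h hp hy
    have t0 : 0 ≤ D / y := by positivity
    have t1 : D / y ≤ 1 := (div_le_one hyl).2 hD1
    have u1 : Real.exp (-SX m h p) * |D / y| ≤ 1 / y := by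
      have a1 := exp_SX_le h hp hy (le_refl (wreg.dep m p l (rkF R h)))
      rw [abs_of_nonneg t0, mul_div_assoc', div_le_div_iff_of_pos_right hyl]
      have a2 := mul_le_mul_of_nonneg_right a1 hD0
      have a3 := mul_exp_le (s := D)
      linarith
    have u2 : Real.exp (-((bP R m p).1 l - SX m h p)) * |1 - D / y| ≤ 1 / y := by
      have a1 := exp_sub_SX_le h hp hy (le_refl (p.2.2.1 l - wreg.dep m p l (rkF R h)))
      have a0 : 1 - D / y = (y - D) / y := by field_simp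
      rw [a0, abs_of_nonneg (div_nonneg (by linarith) hyl.le), mul_div_assoc',
        div_le_div_iff_of_pos_right hyl]
      have a2 := mul_le_mul_of_nonneg_right a1 (by linarith : 0 ≤ y - D)
      have a3 := mul_exp_le (s := y - D)
      linarith
    have u3 : |D / y - SX m h p / (bP R m p).1 l * 1| ≤ 3 / y := by
      have hlp := log16_pos
      have hl3 := log16_le
      have b0 : (bP R m p).1 l = y + 2 * Real.log 16 := rfl
      have b1 : SX m h p = Real.log 16 + D := SX_eq h p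
      have hyp : 0 < y := hyl
      rw [mul_one, b0, b1]
      have b2 : D / y - (Real.log 16 + D) / (y + 2 * Real.log 16) =
          Real.log 16 * (2 * (D / y) - 1) / (y + 2 * Real.log 16) := by
        field_simp
        ring
      rw [b2, abs_div, abs_mul, abs_of_pos hlp, abs_of_pos (by linarith : 0 < y + 2 * Real.log 16)]
      have b3 : |2 * (D / y) - 1| ≤ 1 := by
        rw [abs_le]
        constructor <;> linarith
      have b4 : Real.log 16 * |2 * (D / y) - 1| ≤ 3 :=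
        (mul_le_of_le_one_right hlp.le b3).trans hl3
      exact div_le_div₀ (by norm_num) b4 hyp (by linarith)
    have k1 : 2 * |w0 U ξ p l| / (bP R m p).1 l *
        |D / y - SX m h p / (bP R m p).1 l * 1| ≤
        2 * |w0 U ξ p l| / (bP R m p).1 l * (3 / y) :=
      mul_le_mul_of_nonneg_left u3 (by positivity)
    have k2 : 2 * U.A * c0 U ξ p * (Real.exp (-SX m h p) * |D / y| +
        Real.exp (-((bP R m p).1 l - SX m h p)) * |1 - D / y|) ≤
        2 * U.A * c0 U ξ p * (1 / y + 1 / y) :=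
      mul_le_mul_of_nonneg_left (add_le_add u1 u2) (by positivity)
    have k3 : 2 * U.A * c0 U ξ p * (1 / y + 1 / y) = 4 * U.A * c0 U ξ p / y := by ring
    linarith
  · rw [if_neg hlk]
    have z5 : (ey l : Pa (Fin 3)).1 k = 0 := by
      simp [ey, Ne.symm hlk]
    rw [z5] at hsc
    have h1 := LX_eul_ne (m := m) p k l (rkF R h) hlk hyl.ne'
    have s1 : SC m h ((W R m).eul p l) = 0 := by
      rw [SC_apply, h1]
      simp
    have s2 : TC m h ((W R m).eul p l) = 0 := by
      rw [TC_apply, h1]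
      simp
    have g := hsc 0 s1 s2
    simp only [mul_zero, sub_zero, abs_zero, add_zero] at g
    linarith

/-- core directions do not move anything -/
theorem neck_re (hb : U.D.Big M (bP R m p)) (hρ : ‖ep (bP R m p)‖ < U.ρ) (c : R.Cm)
    {d : (W R m).Dir R.Cm} (hd : d = .re c ∨ d = .im c) :
    fderiv ℝ (UNp m U ξ h) p ((W R m).vec d) = 0 := by
  have hbC : bC R m ((W R m).vec d) = 0 := by
    rcases hd with rfl | rfl
    · rfl
    · rfl
  have h0 : wreg.LX R.Cm R.n m k (rkF R h) ((W R m).vec d) = 0 := by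
    rcases hd with rfl | rfl
    · exact LX_re_dir k _ c
    · exact LX_im_dir k _ c
  have e := master U h ξ hb hρ (SX_nonneg h hp hy) (SX_le h hp hy) ((W R m).vec d)
  rw [hbC] at e
  have z1 : w1 U ξ p k (0 : Pa (Fin 3)) = 0 := map_zero _
  have z2 : c1 U ξ p (0 : Pa (Fin 3)) = 0 := by
    unfold c1
    rw [map_zero, norm_zero]
  have z3 : ‖dep (bP R m p) 0‖ = 0 := by rw [map_zero, norm_zero]
  have z4 : (0 : Pa (Fin 3)).1 k = 0 := rfl
  have z5 : (0 : Pa (Fin 3)).2 k = 0 := rfl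
  have s1 : SC m h ((W R m).vec d) = 0 := by
    rw [SC_apply, h0]
    simp
  have s2 : TC m h ((W R m).vec d) = 0 := by
    rw [TC_apply, h0]
    simp
  rw [z1, z2, z3, z4, z5, s1, s2] at e
  simp only [abs_zero, mul_zero, add_zero, sub_zero] at e
  exact abs_eq_zero.1 (le_antisymm e (abs_nonneg _))

end Pt

end Vale.Agent.P273.H863

end
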