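import Vale.Agent.P273.H857.Stm

/-!
Row GP-ROOT, part 2: paths that are flat near the starting point, and the value at the root as a
limit from the right.
-/

open Complex Set Filter Topology MeasureTheory
open scoped ContDiff

namespace Vale.Agent.P273.H863

open Vale.Agent.P273.H857

noncomputable section

theorem P_eq (hINV : StmINV) {k : ℕ} {B : Finset (Fin 6)} {b : C6} {x : ℂ} (hk : k ≤ 1)
    (hb : Function.Injective b) {g : ℝ → ℝ} (hg : Adm B b x g) : P k B b x = PG k B b x g := by
  have h : ∃ g, Adm B b x g := ⟨g, hg⟩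
  unfold P
  rw [dif_pos h]
  exact (hINV k B b x hk hb).2 _ _ h.choose_spec hg

/-- a path that is flat near the start -/
theorem exists_flat {B : Finset (Fin 6)} {b : C6} {x : ℂ} {g : ℝ → ℝ} (h : Adm B b x g) :
    ∃ (g' : ℝ → ℝ) (δ : ℝ), 0 < δ ∧ Adm B b x g' ∧ ∀ t ≤ δ, g' t = 0 := by
  obtain ⟨δ, hδ, hl⟩ : ∃ δ > (0 : ℝ), ∀ l, 0 < (b l - x).re → 2 * δ ≤ (b l - x).re := by
    have h1 : ∀ᶠ δ : ℝ in 𝓝[>] 0, ∀ l, 0 < (b l - x).re → 2 * δ ≤ (b l - x).re := by
      rw [eventually_all]
      intro l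
      by_cases hp : 0 < (b l - x).re
      · have h2 : Tendsto (fun δ : ℝ => 2 * δ) (𝓝[>] 0) (𝓝 0) := by
          have : Tendsto (fun δ : ℝ => 2 * δ) (𝓝 0) (𝓝 (2 * 0)) := by
            exact (continuous_const.mul continuous_id).tendsto 0
          rw [mul_zero] at this
          exact this.mono_left nhdsWithin_le_nhds
        filter_upwards [h2.eventually_lt_const hp] with δ hδ _ using hδ.le
      · exact Eventually.of_forall fun δ h3 => absurd h3 hp
    obtain ⟨δ, h2, h3⟩ := (h1.and self_mem_nhdsWithin).exists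
    exact ⟨δ, h3, h2⟩
  set χ : ℝ → ℝ := fun t => Real.smoothTransition (t / δ - 1) with hχ
  have hχs : ContDiff ℝ ∞ χ := Real.smoothTransition.contDiff.comp
    ((contDiff_id.div_const δ).sub contDiff_const)
  have hχ0 : ∀ t ≤ δ, χ t = 0 := fun t ht => by
    apply Real.smoothTransition.zero_of_nonpos
    rw [sub_nonpos, div_le_one hδ]; exact ht
  have hχ1 : ∀ t, 2 * δ ≤ t → χ t = 1 := fun t ht => by
    apply Real.smoothTransition.one_of_one_le
    rw [le_sub_iff_add_le, le_div_iff₀ hδ]; linarith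
  obtain ⟨K, hK⟩ := h.1.bdd
  have hs : ContDiff ℝ ∞ fun t => χ t * g t := hχs.mul h.1.smooth
  refine ⟨fun t => χ t * g t, δ, hδ, ⟨⟨hs, ?_, ?_⟩, ?_⟩, fun t ht => by simp [hχ0 t ht]⟩
  · simp [h.1.zero]
  · -- bounded derivative
    have hc : Continuous (deriv fun t => χ t * g t) := hs.continuous_deriv (by simp)
    obtain ⟨C, hC⟩ := (isCompact_Icc (a := δ) (b := 2 * δ)).exists_bound_of_continuousOn
      hc.continuousOn
    refine ⟨max (max K C) 0, fun t => ?_⟩
    rcases lt_or_ge t δ with h1 | h1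
    · have e : (fun t => χ t * g t) =ᶠ[𝓝 t] fun _ => 0 := by
        filter_upwards [Iio_mem_nhds h1] with s hs
        rw [hχ0 s (le_of_lt hs), zero_mul]
      rw [e.deriv_eq, deriv_const, abs_zero]
      exact le_max_right _ _
    · rcases le_or_gt t (2 * δ) with h2 | h2
      · have := hC t ⟨h1, h2⟩
        rw [Real.norm_eq_abs] at this
        exact this.trans ((le_max_right _ _).trans (le_max_left _ _))
      · have e : (fun t => χ t * g t) =ᶠ[𝓝 t] g := by
          filter_upwards [Ioi_mem_nhds h2] with s hs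
          rw [hχ1 s (le_of_lt hs), one_mul]
        rw [e.deriv_eq]
        exact (hK t).trans ((le_max_left _ _).trans (le_max_left _ _))
  · intro l hl1 hl2
    have h3 := h.2 l hl1 hl2
    rcases hl2.eq_or_lt with h4 | h4
    · have e : χ (b l - x).re * g (b l - x).re = g (b l - x).re := by
        rw [← h4, h.1.zero, mul_zero]
      simp only [e]
      exact h3
    · have e : χ (b l - x).re * g (b l - x).re = g (b l - x).re := by
        rw [hχ1 _ (hl l h4), one_mul]
      simp only [e]
      exact h3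

/-- the tail of a flat path -/
theorem shift_adm {B : Finset (Fin 6)} {b : C6} {x : ℂ} {g : ℝ → ℝ} {δ : ℝ} (h : Adm B b x g)
    (hflat : ∀ t ≤ δ, g t = 0) {s : ℝ} (h0 : 0 < s) (h1 : s ≤ δ) :
    Adm B b (x + s) fun t => g (t + s) := by
  refine ⟨⟨?_, ?_, ?_⟩, ?_⟩
  · exact h.1.smooth.comp (contDiff_id.add contDiff_const)
  · simp only [zero_add]
    exact hflat s h1
  · obtain ⟨K, hK⟩ := h.1.bdd
    refine ⟨K, fun t => ?_⟩
    rw [deriv_comp_add_const]
    exact hK _
  · intro l _ hr
    have e1 : (b l - (x + s)).re + s = (b l - x).re := by simp; ring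
    have e2 : (b l - (x + s)).im = (b l - x).im := by simp
    have h3 : b l ≠ x := by
      rintro h4
      rw [h4] at hr
      simp at hr
      linarith
    have h5 := h.2 l h3 (by rw [← e1]; linarith)
    simp only [e1, e2]
    exact h5

theorem igd_shift (k : ℕ) (B : Finset (Fin 6)) (b : C6) (x : ℂ) (g : ℝ → ℝ) (s t : ℝ) :
    igd k B b (x + s) (fun t => g (t + s)) t = igd k B b x g (t + s) := by
  have e : gam (x + s) (fun t => g (t + s)) t = gam x g (t + s) := by
    unfold gam; push_cast; ring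
  unfold igd
  rw [e, deriv_comp_add_const]

theorem integral_Ioi_shift (f : ℝ → ℂ) (s : ℝ) :
    ∫ t in Ioi (0 : ℝ), f (t + s) = ∫ t in Ioi s, f t := by
  have h := (measurePreserving_add_right volume s).setIntegral_preimage_emb
    (measurableEmbedding_addRight s) f (Ioi s)
  have e : (fun t : ℝ => t + s) ⁻¹' Ioi s = Ioi 0 := by
    ext t; simp
  rw [e] at h
  exact h

/-- the value at `x` is the limit of the values at `x + s` for real `s ↓ 0` -/
theorem tendsto_P_right (hEX : StmEX) (hINV : StmINV) {k : ℕ} {B : Finset (Fin 6)} {b : C6}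
    {x : ℂ} (hk : k ≤ 1) (hb : Function.Injective b) (hok : OK B b x) :
    Tendsto (fun s : ℝ => P k B b (x + s)) (𝓝[>] 0) (𝓝 (P k B b x)) := by
  obtain ⟨g₀, hg₀⟩ := hEX B b x hok
  obtain ⟨g, δ, hδ, hg, hflat⟩ := exists_flat hg₀
  have hint := (hINV k B b x hk hb).1 g hg
  rw [P_eq hINV hk hb hg]
  have h1 : Tendsto (fun s : ℝ => ∫ t in (0 : ℝ)..s, igd k B b x g t) (𝓝[>] 0) (𝓝 0) := by
    have hi : IntervalIntegrable (igd k B b x g) volume 0 1 := by
      rw [intervalIntegrable_iff_integrableOn_Ioc_of_le zero_le_one]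
      exact hint.mono_set Ioc_subset_Ioi_self
    have h2 := intervalIntegral.continuousOn_primitive_interval' hi
      (left_mem_uIcc (a := (0 : ℝ)) (b := 1))
    have h3 := h2 0 left_mem_uIcc
    rw [ContinuousWithinAt, intervalIntegral.integral_same, uIcc_of_le zero_le_one] at h3
    refine h3.mono_left ?_
    exact nhdsWithin_le_of_mem (mem_of_superset (Ioo_mem_nhdsGT (zero_lt_one' ℝ))
      Ioo_subset_Icc_self)
  have h4 : Tendsto (fun s : ℝ => PG k B b x g + ∫ t in (0 : ℝ)..s, igd k B b x g t) (𝓝[>] 0)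
      (𝓝 (PG k B b x g)) := by
    simpa using h1.const_add (PG k B b x g)
  refine h4.congr' ?_
  filter_upwards [Ioo_mem_nhdsGT hδ] with s hs
  have hs1 := shift_adm hg hflat hs.1 hs.2.le
  rw [P_eq hINV hk hb hs1]
  unfold PG
  simp only [igd_shift]
  rw [integral_Ioi_shift (igd k B b x g) s]
  have h5 := intervalIntegral.integral_Ioi_sub_Ioi hint hs.1.le
  rw [← h5]
  ring

/-- to the right of the root `b m` the label `m` does not matter -/
theorem P_insert_right (hEX : StmEX) (hINV : StmINV) {k : ℕ} {B : Finset (Fin 6)} {b : C6}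
    {x : ℂ} {m : Fin 6} (hk : k ≤ 1) (hb : Function.Injective b) (hm : m ∉ B)
    (hok : OK B b x) (hr : (b m).re < x.re) : P k (insert m B) b x = P k B b x := by
  obtain ⟨g, hg⟩ := hEX B b x hok
  have hg' : Adm (insert m B) b x g := by
    refine ⟨hg.1, fun l hl hr2 => ?_⟩
    have hlm : l ≠ m := by
      rintro rfl
      rw [sub_re] at hr2; linarith
    have h1 := hg.2 l hl hr2
    refine ⟨fun h2 => h1.1 ?_, fun h2 => h1.2 ?_⟩
    · exact (Finset.mem_insert.1 h2).resolve_left hlm
    · exact fun h3 => h2 (Finset.mem_insert_of_mem h3)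
  rw [P_eq hINV hk hb hg', P_eq hINV hk hb hg]
  unfold PG
  congr 1
  refine setIntegral_congr_fun measurableSet_Ioi fun t ht => ?_
  unfold igd
  have e : H857.sq (insert m B) b (gam x g t) = H857.sq B b (gam x g t) := by
    unfold H857.sq
    refine Finset.prod_congr rfl fun l _ => ?_
    unfold br
    by_cases hlm : l = m
    · subst hlm
      rw [if_pos (Finset.mem_insert_self _ _), if_neg hm]
      refine (rt_eq_ru ?_).symm
      rw [sub_re, gam_re]
      have : (0 : ℝ) < t := ht
      linarith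
    · have : l ∈ insert m B ↔ l ∈ B := by simp [hlm]
      simp only [this]
  simp only [e]

end

end Vale.Agent.P273.H863
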